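import Vale.Agent.P057S1.Plan
import Vale.Agent.P057EN.Top

/-!
Views of a configuration with one further vertex.
-/

set_option linter.all false

open Matrix Finset
open Vale.Agent.P267.H775 Vale.Agent.P057G Vale.Agent.P057PC Vale.Agent.P057TP Vale.Agent.P057SG
open Vale.Agent.P057GH (pb fsb sb ok_fsb top_fsb at_fsb at_pb ok_pb pr_ext pr_congr)
open Vale.Agent.P057EN

namespace Vale.Agent.P057S1

noncomputable section

variable {T : Tow} {C C₁ U R : Type} [Fintype U] [DecidableEq U] {cl : U → C}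
  {cl₁ : Option U → C₁} {m s : ℕ} {N : ℝ}

theorem bs_unit (l : Lb T cl Unit m) : l.bs = none ∨ l.bs = some () := by
  cases l.bs <;> simp

theorem tot_congr [AddCommMonoid R] {x x' : Lb T cl Unit m → R} {a : T.ι} {A : Finset U}
    (h : ∀ l : Lb T cl Unit m, l.cd = a → l.fc = A → x l = x' l) : tot x () a A = tot x' () a A :=
  sum_congr rfl fun l _ => by
    split_ifs with e
    exacts [h l e.1 e.2.1, rfl]

theorem tot_add [AddCommMonoid R] (x y : Lb T cl Unit m → R) (a : T.ι) (A : Finset U) :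
    tot (x + y) () a A = tot x () a A + tot y () a A := by
  simp only [tot, ← sum_add_distrib, Pi.add_apply]
  exact sum_congr rfl fun l _ => by split_ifs <;> simp

theorem tot_smul (c : ℝ) (x : Lb T cl Unit m → ℝ) (a : T.ι) (A : Finset U) :
    tot (c • x) () a A = c * tot x () a A := by
  simp only [tot, mul_sum, Pi.smul_apply, smul_eq_mul, mul_ite, mul_zero]

theorem tot_zero [AddCommMonoid R] (a : T.ι) (A : Finset U) :
    tot (0 : Lb T cl Unit m → R) () a A = 0 := tot_none _ fun _ _ _ _ => rfl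

theorem card_ins (A : Finset U) : (insert none (A.image some)).card = A.card + 1 := by
  rw [card_insert_of_notMem (by simp), card_image_of_injective _ (Option.some_injective _)]

theorem er_img (A : Finset U) : eraseNone (A.image some) = A := by ext; simp

theorem er_ins (A : Finset U) : eraseNone (insert none (A.image some)) = A := by ext; simp

/-- the labels without the new vertex -/
def vy [AddCommMonoid R] (cl : U → C) (z : Lb T cl₁ Unit m → R) (l : Lb T cl Unit m) : R :=
  tot z () l.cd (l.fc.image some)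

/-- the labels through the new vertex -/
def vx [AddCommMonoid R] (cl : U → C) (z : Lb T cl₁ Unit m → R) (l : Lb T cl Unit m) : R :=
  tot z () l.cd (insert none (l.fc.image some))

theorem vx_pu [AddCommMonoid R] (z : Lb T cl₁ Unit m → R) {l : Lb T cl Unit m} (h : Pu l) :
    vx cl z l = 0 := tot_big _ _ (by rw [card_ins, l.card_eq h]; omega)

theorem toR_vy (z : Lb T cl₁ Unit m → ℤ) : toR (vy cl z) = vy cl (toR z) :=
  funext fun _ => tot_cast _ _ _ _

theorem toR_vx (z : Lb T cl₁ Unit m → ℤ) : toR (vx cl z) = vx cl (toR z) :=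
  funext fun _ => tot_cast _ _ _ _

theorem tot_view [AddCommMonoid R] (z : Lb T cl₁ Unit m → R) (g : Finset U → Finset (Option U))
    (hg : ∀ A, A.card ≤ (g A).card) (a : T.ι) {A : Finset U} (hA : Set.InjOn cl A) :
    tot (fun l : Lb T cl Unit m => tot z () l.cd (g l.fc)) () a A = tot z () a (g A) := by
  by_cases h1 : T.lv a < m
  · by_cases h2 : A.card ≤ T.lv a
    · obtain ⟨l, rfl, rfl, h3⟩ := exists_lab (T := T) (cl := cl) () h1 hA h2
      exact tot_lab _ h3
    · rw [tot_big _ _ (not_le.1 h2), tot_big _ _ ((not_le.1 h2).trans_le (hg A))]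
  · rw [tot_high _ _ _ (not_lt.1 h1), tot_high _ _ _ (not_lt.1 h1)]

theorem tot_vy [AddCommMonoid R] (z : Lb T cl₁ Unit m → R) (a : T.ι) {A : Finset U}
    (hA : Set.InjOn cl A) : tot (vy cl z) () a A = tot z () a (A.image some) :=
  tot_view z (image some) (fun A => (card_image_of_injective _ (Option.some_injective _)).ge) a hA

theorem tot_vx [AddCommMonoid R] (z : Lb T cl₁ Unit m → R) (a : T.ι) {A : Finset U}
    (hA : Set.InjOn cl A) : tot (vx cl z) () a A = tot z () a (insert none (A.image some)) :=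
  tot_view z (fun A => insert none (A.image some)) (fun A => by rw [card_ins]; omega) a hA

theorem sum_pow_img [AddCommMonoid R] (g : Finset (Option U) → R) (B : Finset U) :
    ∑ A ∈ (B.image some).powerset, g A = ∑ A ∈ B.powerset, g (A.image some) := by
  rw [powerset_image, sum_image fun _ _ _ _ e => image_injective (Option.some_injective _) e]

theorem pt_vy [AddCommMonoid R] (z : Lb T cl₁ Unit m → R) {B : Finset U} (hB : Set.InjOn cl B) :
    pt (vy cl z) (some ()) B = pt z (some ()) (B.image some) := funext fun a => by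
  rw [pt_tot, pt_tot, sum_pow_img]
  exact sum_congr rfl fun A hA => tot_vy z a (hB.mono (coe_subset.2 (mem_powerset.1 hA)))

theorem pt_vs [AddCommMonoid R] (z : Lb T cl₁ Unit m → R) {B : Finset U} (hB : Set.InjOn cl B) :
    pt (vy cl z + vx cl z) (some ()) B = pt z (some ()) (insert none (B.image some)) :=
  funext fun a => by
    rw [pt_tot, pt_tot, sum_powerset_insert (by simp), sum_pow_img,
      sum_pow_img fun A => tot z () a (insert none A), ← sum_add_distrib]
    refine sum_congr rfl fun A hA => ?_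
    have := hB.mono (coe_subset.2 (mem_powerset.1 hA))
    rw [tot_add, tot_vy z a this, tot_vx z a this]

variable {Z : Sys T (Option U) Unit}

theorem at_dy (Z : Sys T (Option U) Unit) (o : Option Unit) (A : Finset U) (a : T.ι) :
    (dy Z).fam.at' o A a = Z.fam.at' o (A.image some) a := by
  rw [dy, at_pb _ _ _ (Option.some_injective _).injOn, Option.map_id_apply]

theorem at_mg (Z : Sys T (Option U) Unit) (o : Option Unit) (A : Finset U) (a : T.ι) :
    (mg Z).fam.at' o A a = Z.fam.at' o (insert none (A.image some)) a := by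
  have := at_fsb Z.fam (g := MvPolynomial.X) id o (A := A) (B := insert none (A.image some))
    (fun w => by cases w <;> simp [evA]) a
  rwa [Option.map_id_apply] at this

theorem ok_dy (h : Z.Ok) : (dy Z).Ok := ok_pb h _ _

theorem ok_mg (h : Z.Ok) : (mg Z).Ok := by
  refine ⟨⟨fun o a => ?_, fun t a => ?_⟩, fun a => ?_⟩
  · change JH T.lv (MvPolynomial.map (sb MvPolynomial.X) (Z.fam.fn (o.map id) a)) (T.lv a)
    rw [MvPolynomial.map_eq_eval₂Hom_C_comp]
    exact JH.ind (A := MvPolynomial T.ι (Lam ℝ U)) (fun d p => JH T.lv p d) (JH.zero _) (JH.one _)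
      (fun _ _ _ => JH.add) (fun _ _ _ _ => JH.mul) (MvPolynomial.C.comp (sb MvPolynomial.X))
      MvPolynomial.X (fun d x hx => JH.C (by
        have := hx.aeval (fun x : Option (Option U) => x.elim (MvPolynomial.X none : Lam ℝ U)
          MvPolynomial.X) (n := 1) fun x => by cases x <;> exact MvPolynomial.isHomogeneous_X _ _
        rwa [one_mul] at this)) (JH.X _) (h.fam.hom (o.map id) a)
  · have e : (kt : Lam ℝ U →+* _).comp (sb MvPolynomial.X) =
        (sb fun v => kt (MvPolynomial.X v)).comp kt := by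
      refine MvPolynomial.ringHom_ext (fun r => by simp [kt_C, P057GH.sb_C]) fun x => ?_
      cases x <;> simp [kt_none, kt_some, P057GH.sb_none, P057GH.sb_some]
    simp only [mg, fsb, MvPolynomial.map_map, e]
    rw [← MvPolynomial.map_map, ← MvPolynomial.map_map, Option.map_some, h.fam.pure]
    rfl
  · exact (top_fsb _ (fun w => by simp) _ a).trans (h.top a)

theorem pr_dy (h : Z.Ok) (z : Lb T cl₁ Unit m → ℝ) {l : Lb T cl Unit m}
    (hl : Set.InjOn cl₁ (l.fc.image some : Finset (Option U))) :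
    (dy Z).pr cl m (vy cl z) l = vy cl (Z.pr cl₁ m z) l := by
  have k : ∀ B ⊆ l.fc, Set.InjOn cl B := fun B hB => l.2.2.1.mono hB
  rw [pr_map (ok_dy h) h (bs_unit l) (image some)
    (fun B hB => hl.mono (coe_subset.2 (image_subset_image hB))) (fun B hB => pt_vy z (k B hB))
    fun B _ => at_dy Z _ B _, ← tot_lab (vy cl _) (bs_unit l), ← dlt_tot]
  exact dlt_congr fun B hB => by rw [pt_vy _ (k B hB)]

theorem pr_mg (h : Z.Ok) (z : Lb T cl₁ Unit m → ℝ) {l : Lb T cl Unit m}
    (hl : Set.InjOn cl₁ (insert none (l.fc.image some) : Finset (Option U))) :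
    (mg Z).pr cl m (vy cl z + vx cl z) l = vy cl (Z.pr cl₁ m z) l + vx cl (Z.pr cl₁ m z) l := by
  have k : ∀ B ⊆ l.fc, Set.InjOn cl B := fun B hB => l.2.2.1.mono hB
  rw [pr_map (ok_mg h) h (bs_unit l) (fun B => insert none (B.image some))
    (fun B hB => hl.mono (coe_subset.2 (insert_subset_insert _ (image_subset_image hB))))
    (fun B hB => pt_vs z (k B hB)) fun B _ => at_mg Z _ B _, ← Pi.add_apply (vy cl _),
    ← tot_lab (vy cl _ + _) (bs_unit l), ← dlt_tot]
  exact dlt_congr fun B hB => by rw [pt_vs _ (k B hB)]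

theorem F_mg (Z : Sys T (Option U) Unit) (f : ℤ → ℝ) (z : Lb T cl₁ Unit m → ℤ) {c : Finset U}
    (hc : Set.InjOn cl c) : (mg Z).F cl m f (vy cl z + vx cl z) c () =
      Z.F cl₁ m f z (insert none (c.image some)) () := by
  have : ∀ y, Sys.full cl m (vy cl z + vx cl z) c () y =
      Sys.full cl₁ m z (insert none (c.image some)) () y := fun y => funext fun a => by
    unfold Sys.full
    rw [pt_vs z hc]
  unfold Sys.F
  simp only [this, at_mg]
  rfl

/-- a configuration from its two views -/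
def jn [AddCommMonoid R] (cl₁ : Option U → C₁) (y x : Lb T cl Unit m → R) (k : Lb T cl₁ Unit m) :
    R := if none ∈ k.fc then tot x () k.cd (eraseNone k.fc) else tot y () k.cd (eraseNone k.fc)

theorem vy_jn [AddCommMonoid R] (y x : Lb T cl Unit m → R) {l : Lb T cl Unit m}
    (hl : Set.InjOn cl₁ (l.fc.image some : Finset (Option U))) : vy cl (jn cl₁ y x) l = y l := by
  obtain ⟨k, h1, h2, h3⟩ := exists_lab (T := T) (cl := cl₁) (m := m) () (a := l.cd) l.2.1 hl
    (card_image_le.trans l.card_le)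
  rw [vy, ← h1, ← h2, tot_lab _ h3, jn, h1, h2, if_neg (by simp), er_img, tot_lab _ (bs_unit l)]

theorem card_np {l : Lb T cl Unit m} (h : ¬ Pu l) : l.fc.card + 1 ≤ T.lv l.cd :=
  l.card_lt ((bs_unit l).resolve_left h)

theorem vx_jn [AddCommMonoid R] (y x : Lb T cl Unit m → R) {l : Lb T cl Unit m} (h : ¬ Pu l)
    (hl : Set.InjOn cl₁ (insert none (l.fc.image some) : Finset (Option U))) :
    vx cl (jn cl₁ y x) l = x l := by
  obtain ⟨k, h1, h2, h3⟩ := exists_lab (T := T) (cl := cl₁) (m := m) () (a := l.cd) l.2.1 hl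
    (by rw [card_ins]; exact card_np h)
  rw [vx, ← h1, ← h2, tot_lab _ h3, jn, h1, h2, if_pos (by simp), er_ins, tot_lab _ (bs_unit l)]

theorem inj_ins (l : Lb T cl Unit m) :
    Set.InjOn (Option.map cl) (insert none (l.fc.image some) : Finset (Option U)) := by
  intro u hu v hv e
  simp only [coe_insert, coe_image, Set.mem_insert_iff, Set.mem_image, mem_coe] at hu hv
  obtain rfl | ⟨u, hu, rfl⟩ := hu <;> obtain rfl | ⟨v, hv, rfl⟩ := hv <;> simp at e ⊢
  exact l.2.2.1 hu hv e

theorem inj_img (l : Lb T cl Unit m) :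
    Set.InjOn (Option.map cl) (l.fc.image some : Finset (Option U)) :=
  (inj_ins l).mono (coe_subset.2 (subset_insert _ _))

theorem vy_jn' [AddCommMonoid R] (y x : Lb T cl Unit m → R) :
    vy cl (jn (Option.map cl) y x) = y := funext fun l => vy_jn y x (inj_img l)

theorem vx_jn' [AddCommMonoid R] (y : Lb T cl Unit m → R) {x : Lb T cl Unit m → R}
    (hx : ∀ l, Pu l → x l = 0) : vx cl (jn (Option.map cl) y x) = x := funext fun l => by
  by_cases h : Pu l
  · rw [vx_pu _ h, hx l h]
  · exact vx_jn y x h (inj_ins l)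

/-- the difference of the centres of the merged and of the deleted system -/
theorem pr_diff (h : Z.Ok) (y : Lb T cl Unit m → ℝ) {x : Lb T cl Unit m → ℝ}
    (hx : ∀ l, Pu l → x l = 0) (l : Lb T cl Unit m) : (mg Z).pr cl m (y + x) l =
      (dy Z).pr cl m y l + vx cl (Z.pr (Option.map cl) m (jn (Option.map cl) y x)) l := by
  have h1 := pr_mg h (jn (Option.map cl) y x) (inj_ins l)
  have h2 := pr_dy h (jn (Option.map cl) y x) (inj_img l)
  rw [vy_jn'] at h1 h2
  rw [vx_jn' y hx] at h1
  rw [h1, h2]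

theorem li_card {l : Lb T cl Unit m} (h : Li l) : l.fc.card + 1 = T.lv l.cd := h.1.resolve_left h.2

/-- the pure label through the new vertex -/
def up (l : LS T cl m) : Lb T (Option.map cl) Unit m :=
  ⟨(l.1.cd, insert none (l.1.fc.image some), none), l.1.2.1, inj_ins l.1,
    (card_ins _).trans (li_card l.2)⟩

theorem vx_up [AddCommMonoid R] (z : Lb T (Option.map cl) Unit m → R) (l : LS T cl m) :
    vx cl z l = z (up l) := tot_lab z (l := up l) (Or.inl rfl)

theorem jn_pure {y y' x x' : Lb T cl Unit m → ℝ} (hy : ∀ l, Pu l → y l = y' l)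
    (hx : ∀ l, Li l → x l = x' l) {k : Lb T cl₁ Unit m} (hk : k.bs = none) :
    jn cl₁ y x k = jn cl₁ y' x' k := by
  have h1 := k.card_eq hk
  unfold jn
  split_ifs with e
  · refine tot_congr fun l a b => hx l ?_
    have := card_eraseNone_of_mem e
    have := card_pos.2 ⟨_, e⟩
    have h2 : l.fc.card + 1 = T.lv l.cd := by rw [a, b]; omega
    exact ⟨Or.inr h2, fun k => by have := l.card_eq k; omega⟩
  · refine tot_congr fun l a b => hy l (by_contra fun k => ?_)
    have := card_np k
    rw [a, b, card_eraseNone_of_not_mem e] at this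
    omega

theorem gl3_pu {R : Type} (w : PW T cl m → R) (x : LS T cl m → R) (y : NP T cl m → R)
    (l : PW T cl m) : gl3 w x y l = w l := dif_pos l.2

theorem gl3_li {R : Type} (w : PW T cl m → R) (x : LS T cl m → R) (y : NP T cl m → R)
    (l : LS T cl m) : gl3 w x y l = x l := (dif_neg l.2.2).trans (dif_pos l.2.1)

theorem gl3_no {R : Type} (w : PW T cl m → R) (x : LS T cl m → R) (y : NP T cl m → R)
    (l : NP T cl m) : gl3 w x y l = y l :=
  (dif_neg fun k => l.2 (Or.inl k)).trans (dif_neg l.2)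

theorem gl3_add {R : Type} [Add R] (w w' : PW T cl m → R) (x x' : LS T cl m → R)
    (y y' : NP T cl m → R) : gl3 (w + w') (x + x') (y + y') = gl3 w x y + gl3 w' x' y' :=
  funext fun l => by
    simp only [gl3, Pi.add_apply]
    split_ifs <;> rfl

theorem gl3_smul (c : ℝ) (w : PW T cl m → ℝ) (x : LS T cl m → ℝ) (y : NP T cl m → ℝ) :
    gl3 (c • w) (c • x) (c • y) = c • gl3 w x y := funext fun l => by
  simp only [gl3, Pi.smul_apply]
  split_ifs <;> rfl

theorem toR_gl3 (w : PW T cl m → ℤ) (x : LS T cl m → ℤ) (y : NP T cl m → ℤ) :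
    toR (gl3 w x y) = gl3 (toR w) (toR x) (toR y) := funext fun l => by
  simp only [gl3, toR_apply]
  split_ifs <;> rfl

theorem cL_mg (h : Z.Ok) (w : PW T cl m → ℤ) (y x : LS T cl m → ℝ) (l : LS T cl m) :
    cL (mg Z) w (y + x) l = cL (dy Z) w y l +
      Z.pr (Option.map cl) m (jn (Option.map cl) (gl3 (toR w) y 0) (gl3 0 x 0)) (up l) := by
  rw [← vx_up (Z.pr _ m _) l, cL, cL, ← pr_diff h _ fun k hk => gl3_pu _ _ _ ⟨k, hk⟩, ← gl3_add,
    add_zero, add_zero]

variable {Zs Zy : Sys T U Unit}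

theorem Pair.pu (h : Pair cl m Zs Zy) (x : Lb T cl Unit m → ℝ) {l : Lb T cl Unit m} (hl : Pu l) :
    Zs.pr cl m x l = Zy.pr cl m x l := by
  obtain ⟨-, -, Z, cs, cy, h1, h2, h3, h4⟩ := h
  have := pr_diff h1 x (x := 0) (fun _ _ => rfl) l
  rw [add_zero, vx_pu _ hl, add_zero] at this
  rw [h3, h4, Pi.add_apply, Pi.add_apply, this, h2 l hl]

theorem Pair.wP (h : Pair cl m Zs Zy) (w : PW T cl m → ℤ) : wP Zs w = wP Zy w := by
  unfold P057SG.wP
  congr 1
  exact funext fun l => by rw [h.pu _ l.2]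

/-- the centre of the merged vertex does not depend on the point of the special vertex -/
theorem Pair.diff (hT : T.Ok s N) (h : Pair cl m Zs Zy) (w : PW T cl m → ℤ)
    (y x : LS T cl m → ℝ) : cL Zs w (y + x) - cL Zy w y = cL Zs w x - cL Zy w 0 := by
  obtain ⟨-, -, Z, cs, cy, h1, h2, h3, h4⟩ := h
  funext l
  have e1 := cL_mg h1 w y x l
  have e2 := cL_mg h1 w 0 x l
  rw [pr_congr hT h1 fun k _ hk _ => jn_pure (y' := gl3 (toR w) 0 0) (x' := gl3 0 x 0)
    (fun k hk => (gl3_pu _ _ _ ⟨k, hk⟩).trans (gl3_pu _ _ _ ⟨k, hk⟩).symm) (fun _ _ => rfl)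
    (hk.elim id id)] at e1
  rw [zero_add] at e2
  simp only [cL, Pi.sub_apply, h3, h4, Pi.add_apply] at e1 e2 ⊢
  linarith

theorem Pair.nl (hT : T.Ok s N) (h : Pair cl m Zs Zy) (w : PW T cl m → ℤ) (t : LS T cl m → ℝ) :
    cL Zs w t - cL Zs w 0 = cL Zy w t - cL Zy w 0 := by
  have := h.diff hT w t 0
  rw [add_zero] at this
  rw [sub_eq_sub_iff_sub_eq_sub, this]

/-- a further vertex without lower order terms -/
def ext (Z : Sys T U Unit) : Sys T (Option U) Unit :=
  ⟨fsb Z.fam (fun u => MvPolynomial.X (some (some u))) id, fun c t => Z.off (eraseNone c) t⟩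

theorem ok_ext (h : Zs.Ok) : (ext Zs).Ok :=
  ⟨ok_fsb h.fam (fun _ => MvPolynomial.isHomogeneous_X _ _) (fun _ => kt_some _) _,
    fun a => (top_fsb _ (fun w => by simp) _ a).trans (h.top a)⟩

theorem at_ext (Z : Sys T U Unit) (o : Option Unit) (A : Finset (Option U)) (a : T.ι) :
    (ext Z).fam.at' o A a = Z.fam.at' o (eraseNone A) a := by
  have := at_fsb Z.fam (g := fun u => MvPolynomial.X (some (some u))) id o (A := A)
    (B := eraseNone A) (fun w => by simp [evA]) a
  rwa [Option.map_id_apply] at this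

theorem pr_mg_ext (Z : Sys T U Unit) (x : Lb T cl Unit m → ℝ) :
    (mg (ext Z)).pr cl m x = Z.pr cl m x :=
  funext fun l => pr_ext (fun B _ => by rw [at_mg, at_ext, er_ins]) x

theorem pr_dy_ext (Z : Sys T U Unit) (x : Lb T cl Unit m → ℝ) :
    (dy (ext Z)).pr cl m x = Z.pr cl m x :=
  funext fun l => pr_ext (fun B _ => by rw [at_dy, at_ext, er_img]) x

theorem pair_self (h : Zs.Ok) : Pair cl m Zs Zs :=
  ⟨h, h, ext Zs, 0, 0, ok_ext h, fun _ _ => rfl, fun x => by rw [pr_mg_ext, add_zero],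
    fun x => by rw [pr_dy_ext, add_zero]⟩

/-- the centres on the linear fibre are affine -/
theorem lin_nl (h : Zs.Ok) (w : PW T cl m → ℤ) :
    IsLinearMap ℝ fun t => cL Zs w t - cL Zs w 0 := by
  classical
  let r : Finset (Lb T (Option.map cl) Unit m) := univ.filter fun k => none ∈ k.fc
  have e : ∀ t l, (cL Zs w t - cL Zs w 0) l = (ext Zs).pr (Option.map cl) m
      (mix r (jn _ 0 (gl3 0 t 0)) (jn _ (gl3 (toR w) 0 0) 0)) (up l) := fun t l => by
    have := cL_mg (ok_ext h) w 0 t l
    simp only [cL, pr_mg_ext, pr_dy_ext, zero_add] at this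
    rw [Pi.sub_apply, cL, cL, this, add_sub_cancel_left]
    congr 1
    funext k
    by_cases hk : none ∈ k.fc <;> simp [mix, r, jn, hk]
  have k := fun l : LS T cl m => lin_pr (ok_ext h) (l := up l) rfl (v := none) (mem_insert_self _ _)
    (fun B => by rw [at_ext, at_ext]; congr 1; ext; simp) (r := r) (fun k => by simp [r])
    (jn _ (gl3 (toR w) 0 0) 0)
  refine ⟨fun t t' => funext fun l => ?_, fun c t => funext fun l => ?_⟩
  · rw [Pi.add_apply, e, e, e, ← (k l).map_add]
    congr 2
    funext k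
    rw [← add_zero (0 : PW T cl m → ℝ), ← add_zero (0 : NP T cl m → ℝ), gl3_add]
    simp only [jn, Pi.add_apply, tot_add, tot_zero, add_zero]
    split_ifs <;> simp
  · rw [Pi.smul_apply, e, e, ← (k l).map_smul]
    congr 2
    funext k
    rw [← smul_zero (M := ℝ) (A := PW T cl m → ℝ) c, ← smul_zero (M := ℝ) (A := NP T cl m → ℝ) c,
      gl3_smul]
    simp only [jn, Pi.smul_apply, tot_smul, tot_zero, smul_zero, smul_eq_mul]
    split_ifs <;> simp

theorem tri_cL (hT : T.Ok s N) (h : Zs.Ok) (w : PW T cl m → ℤ) {t t' : LS T cl m → ℝ}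
    {l : LS T cl m} (e : ∀ k : LS T cl m, T.lv k.1.cd < T.lv l.1.cd → t k = t' k) :
    cL Zs w t l = cL Zs w t' l :=
  pr_congr hT h fun k _ _ hk => by
    unfold gl3
    split_ifs with h1 h2
    exacts [rfl, e ⟨k, h2, h1⟩ hk, rfl]

/-- the unipotent matrix of the linear fibre -/
theorem exists_uni (hT : T.Ok s N) (h : Zs.Ok) (w : PW T cl m → ℤ) :
    ∃ L : Matrix (LS T cl m) (LS T cl m) ℝ, Uni (fun l => T.lv l.1.cd) L ∧
      ∀ t, L *ᵥ t = t - (cL Zs w t - cL Zs w 0) := by
  refine ⟨1 - LinearMap.toMatrix' ((lin_nl h w).mk' _), fun i j hij => ?_, fun t => ?_⟩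
  · rw [Matrix.sub_apply, LinearMap.toMatrix'_apply, IsLinearMap.mk'_apply, Pi.sub_apply,
      tri_cL hT h w (t' := 0) fun k hk => Pi.single_eq_of_ne (fun e : k = j => hij (e ▸ hk)) _,
      sub_self, sub_zero]
  · rw [sub_mulVec, one_mulVec, ← Matrix.toLin'_apply, Matrix.toLin'_toMatrix']
    rfl

end

end Vale.Agent.P057S1
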