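import Vale.Agent.P057S1.LamE

/-! More copies of a class, and copying a class under a weight. -/

set_option linter.all false

open Finset Function
open scoped BigOperators ENNReal

namespace Vale.Agent.P057S1

open Vale.Agent.P057RH

noncomputable section

open Classical

theorem wt_pt {a v n : ℝ} (ha : 0 ≤ a) (v0 : 0 ≤ v) (v1 : v ≤ 1) :
    4 * a * v + 2 * n ≤ 4 * a * (v * n) + 4 * a ^ 2 + 1 + n ^ 2 := by
  rcases le_total n 1 with h | h
  · nlinarith [sq_nonneg (2 * a - (1 - n)),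
      mul_nonneg (mul_nonneg ha (sub_nonneg.2 v1)) (sub_nonneg.2 h)]
  · nlinarith [sq_nonneg (n - 1), sq_nonneg a, mul_nonneg (mul_nonneg ha v0) (sub_nonneg.2 h)]

/-- a weight bounded by one does not see a density which is close to one in mean square -/
theorem wt_le {β : Type} (w u N : β → ℝ≥0∞) (hu : ∀ x, u x ≤ 1) {a : ℝ≥0∞} (ha : a ≤ 1)
    (a0 : a ≠ 0) (h0 : ∑' x, w x ≤ 1 + a ^ 2) (h1 : 1 ≤ ∑' x, w x * N x + a ^ 2)
    (h2 : ∑' x, w x * N x ^ 2 ≤ 1 + a ^ 2) :
    ∑' x, w x * u x ≤ ∑' x, w x * u x * N x + 3 * a := by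
  have at' : a ≠ ⊤ := ne_top_of_le_ne_top ENNReal.one_ne_top ha
  have key : ∀ x, 4 * a * u x + 2 * N x ≤ 4 * a * (u x * N x) + 4 * a ^ 2 + 1 + N x ^ 2 := by
    intro x
    by_cases hN : N x = ⊤
    · simp [hN]
    have ut : u x ≠ ⊤ := ne_top_of_le_ne_top ENNReal.one_ne_top (hu x)
    have u1 := hu x
    lift a to NNReal using at'
    lift u x to NNReal using ut with v hv
    lift N x to NNReal using hN with n hn
    have v1 : (v : ℝ) ≤ 1 := by exact_mod_cast u1
    exact_mod_cast wt_pt (n := n) a.coe_nonneg v.coe_nonneg v1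
  have s : 4 * a * ∑' x, w x * u x + 2 * ∑' x, w x * N x ≤
      4 * a * ∑' x, w x * u x * N x + 4 * a ^ 2 * ∑' x, w x + ∑' x, w x +
        ∑' x, w x * N x ^ 2 := by
    simp only [← ENNReal.tsum_mul_left, ← ENNReal.tsum_add]
    refine ENNReal.tsum_le_tsum fun x => ?_
    calc _ = w x * (4 * a * u x + 2 * N x) := by ring
      _ ≤ w x * _ := mul_le_mul_right (key x) _
      _ = _ := by ring
  generalize ∑' x, w x * u x = U at s ⊢
  generalize ∑' x, w x * u x * N x = UN at s ⊢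
  generalize ∑' x, w x * N x = m1 at s h1
  generalize ∑' x, w x * N x ^ 2 = m2 at s h2
  generalize ∑' x, w x = m0 at s h0
  have a2 : a ^ 2 ≤ 1 := pow_le_one' ha 2
  have t : 4 * a * U + 2 ≤ 4 * a * (UN + 3 * a) + 2 := by
    calc 4 * a * U + 2 ≤ 4 * a * U + 2 * (m1 + a ^ 2) := by
          gcongr; simpa using mul_le_mul_right h1 2
      _ = 4 * a * U + 2 * m1 + 2 * a ^ 2 := by ring
      _ ≤ 4 * a * UN + 4 * a ^ 2 * (1 + 1) + (1 + a ^ 2) + (1 + a ^ 2) + 2 * a ^ 2 := by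
          refine add_le_add (s.trans ?_) le_rfl
          gcongr
          exact h0.trans (by gcongr)
      _ = 4 * a * (UN + 3 * a) + 2 := by ring
  rw [ENNReal.add_le_add_iff_right (by simp)] at t
  exact (ENNReal.mul_le_mul_iff_right (by simp [a0]) (by finiteness)).1 t

/-- copying: a centred lower bound under a weight gives a lower bound for a high moment -/
theorem cpy {β : Type} (w u N B : β → ℝ≥0∞) (hu : ∀ x, u x ≤ 1) {a M κ θ ε : ℝ≥0∞} (ha : a ≤ 1)
    (a0 : a ≠ 0) (h0 : ∑' x, w x ≤ 1 + a ^ 2) (h1 : 1 ≤ ∑' x, w x * N x + a ^ 2)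
    (h2 : ∑' x, w x * N x ^ 2 ≤ 1 + a ^ 2) (hB : ∀ x, B x ≤ M * N x) (hM : M ≠ ⊤) (M0 : M ≠ 0)
    (h : κ + θ * ∑' x, w x * u x * N x ≤ ∑' x, w x * u x * B x) (hε : 3 * a * M ≤ ε * κ)
    (k0 : κ ≠ 0) (p : ℕ) :
    θ ^ (p + 1) * κ ≤ M * (1 + ε) ^ p * ∑' x, w x * B x ^ (p + 1) := by
  have hU := wt_le w u N hu ha a0 h0 h1 h2
  have a2 : a ^ 2 ≤ 1 := pow_le_one' ha 2
  have hN : ∑' x, w x * u x * N x ≠ ⊤ := by
    have : ∀ x, w x * u x * N x ≤ w x + w x * N x ^ 2 := fun x => by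
      calc w x * u x * N x ≤ w x * 1 * N x := by gcongr; exact hu x
        _ = w x * N x := by rw [mul_one]
        _ ≤ w x * (1 + N x ^ 2) := by
          gcongr
          rcases le_total (N x) 1 with k | k
          · exact k.trans le_self_add
          · exact (le_self_pow k two_ne_zero).trans le_add_self
        _ = _ := by ring
    refine ne_top_of_le_ne_top ?_ (ENNReal.tsum_le_tsum this)
    rw [ENNReal.tsum_add]
    refine ne_top_of_le_ne_top (b := (1 + 1) + (1 + 1)) (by simp) ?_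
    exact add_le_add (h0.trans (by gcongr)) (h2.trans (by gcongr))
  have hk : κ ≤ M * ∑' x, w x * u x * N x := by
    refine le_self_add.trans (h.trans ?_)
    rw [← ENNReal.tsum_mul_left]
    refine ENNReal.tsum_le_tsum fun x => ?_
    calc w x * u x * B x ≤ w x * u x * (M * N x) := by gcongr; exact hB x
      _ = _ := by ring
  have H := holE_mom (fun x => w x * u x) B (n := 1) (n' := p + 1) (by omega) (by omega)
  have hS : ∑' x, w x * u x * B x ^ (p + 1) ≤ ∑' x, w x * B x ^ (p + 1) :=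
    ENNReal.tsum_le_tsum fun x => by
      calc w x * u x * B x ^ (p + 1) ≤ w x * 1 * B x ^ (p + 1) := by gcongr; exact hu x
        _ = _ := by rw [mul_one]
  simp only [pow_one, Nat.add_sub_cancel] at H
  generalize ∑' x, w x * u x = U at hU H
  generalize ∑' x, w x * u x * N x = UN at hU hN hk h
  generalize ∑' x, w x * u x * B x = UB at H h
  generalize ∑' x, w x * B x ^ (p + 1) = S at hS ⊢
  have U0 : UN ≠ 0 := by rintro rfl; exact k0 (by simpa using hk)
  have e1 : 3 * a ≤ ε * UN := by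
    refine (ENNReal.mul_le_mul_iff_left M0 hM).1 (hε.trans ?_)
    calc ε * κ ≤ ε * (M * UN) := by gcongr
      _ = _ := by ring
  have e2 : U ≤ (1 + ε) * UN := hU.trans (by rw [add_mul, one_mul]; gcongr)
  have e3 : θ ^ (p + 1) * UN * UN ^ p ≤ (1 + ε) ^ p * S * UN ^ p := by
    calc θ ^ (p + 1) * UN * UN ^ p = (θ * UN) ^ (p + 1) := by ring
      _ ≤ UB ^ (p + 1) := pow_le_pow_left' (le_add_self.trans h) _
      _ ≤ S * ((1 + ε) * UN) ^ p := H.trans (by gcongr)
      _ = _ := by rw [mul_pow]; ring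
  rw [ENNReal.mul_le_mul_iff_left (pow_ne_zero _ U0) (ENNReal.pow_ne_top hN)] at e3
  calc θ ^ (p + 1) * κ ≤ θ ^ (p + 1) * (M * UN) := by gcongr
    _ = M * (θ ^ (p + 1) * UN) := by ring
    _ ≤ M * ((1 + ε) ^ p * S) := by gcongr
    _ = _ := by ring

variable {C N V : Type} [Fintype C] [DecidableEq C] [Fintype N] [DecidableEq N] [DecidableEq V]

/-- more copies of one class -/
theorem mono_step {v0 : V} {A A0 A1 A2 : C → Finset N} {G : Fc C N → Vw C V → ℝ≥0∞}
    (h : On v0 A G) {i : C} (h0 : ∀ j, j ≠ i → A0 j = A j) (h1 : ∀ j, j ≠ i → A1 j = A j)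
    (h2 : ∀ j, j ≠ i → A2 j = A j) (e0 : A0 i = ∅) (hc : (A1 i).card ≤ (A2 i).card)
    (hn : (A2 i).Nonempty) (t : C → N) (ht : t i ∈ A i) :
    LamE (ct v0 A1 fun φ => G (rp {i} t φ)) ^ (A2 i).card ≤
      LamE (ct v0 A2 fun φ => G (rp {i} t φ)) ^ (A1 i).card *
        LamE (ct v0 A0 fun φ => G (rp {i} t φ)) ^ ((A2 i).card - (A1 i).card) := by
  rw [lamE_copy h h0 t ht, lamE_copy h h1 t ht, lamE_copy h h2 t ht, e0]
  simpa using holE_mom (fr i G) (bsE i (at' i (t i) G)) hc hn.card_ne_zero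

end

end Vale.Agent.P057S1
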