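import Vale.Agent.P057S1.Cpy

/-! Telescoping over the edges of a grid; truncation of a density. -/

set_option linter.all false

open Finset Function
open scoped BigOperators ENNReal

namespace Vale.Agent.P057S1

noncomputable section

open Classical

theorem tel_nat (E : ℕ → ℝ≥0∞) {l r δ : ℝ≥0∞} (hr : r + 2 * δ ≤ 1) (h0 : E 0 ≤ 1 + δ) {n : ℕ}
    (hn : n ≠ 0) (h : l ^ n ≤ E n) : ∃ j < n, δ * l ^ (j + 1) + r * l * E j ≤ E (j + 1) := by
  by_contra hc
  push Not at hc
  have r1 : r ≤ 1 := le_self_add.trans hr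
  have step : ∀ j < n, E j ≤ l ^ j * (1 + δ) → E (j + 1) < l ^ (j + 1) := fun j hj k => by
    refine (hc j hj).trans_le ?_
    calc δ * l ^ (j + 1) + r * l * E j ≤ δ * l ^ (j + 1) + r * l * (l ^ j * (1 + δ)) := by gcongr
      _ = l ^ (j + 1) * (r + δ + r * δ) := by ring
      _ ≤ l ^ (j + 1) * (r + δ + 1 * δ) := by gcongr
      _ = l ^ (j + 1) * (r + 2 * δ) := by ring
      _ ≤ l ^ (j + 1) * 1 := by gcongr
      _ = _ := mul_one _
  have all : ∀ j ≤ n, E j ≤ l ^ j * (1 + δ) := fun j => by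
    induction j with
    | zero => intro _; simpa using h0
    | succ j ih =>
      intro hj
      exact (step j hj (ih (by omega))).le.trans (le_mul_of_one_le_right' le_self_add)
  obtain ⟨k, rfl⟩ := Nat.exists_eq_succ_of_ne_zero hn
  exact absurd h (not_le.2 (step k (by omega) (all k (by omega))))

/-- one edge carries a centred lower bound -/
theorem tel {X : Type} [DecidableEq X] (s : Finset X) (hs : s.Nonempty) (E : Finset X → ℝ≥0∞)
    {l r δ : ℝ≥0∞} (hr : r + 2 * δ ≤ 1) (h0 : E ∅ ≤ 1 + δ) (h : l ^ s.card ≤ E s) :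
    ∃ t ⊆ s, ∃ e ∈ s, e ∉ t ∧ δ * l ^ (t.card + 1) + r * l * E t ≤ E (insert e t) := by
  let f := s.equivFin
  let T : ℕ → Finset X := fun j => (univ.filter fun i : Fin s.card => i.1 < j).image fun i => f.symm i
  have hinj : Injective fun i : Fin s.card => (f.symm i : X) :=
    Subtype.val_injective.comp f.symm.injective
  have T0 : T 0 = ∅ := by simp [T]
  have Tn : T s.card = s := by
    ext x
    simp only [T, mem_image, mem_filter, mem_univ, true_and, Fin.is_lt]
    exact ⟨fun ⟨i, hi⟩ => hi ▸ (f.symm i).2, fun hx => ⟨f ⟨x, hx⟩, by simp⟩⟩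
  obtain ⟨j, hj, k⟩ := tel_nat (fun j => E (T j)) hr (by rwa [T0]) hs.card_ne_zero (by rwa [Tn])
  have e : T (j + 1) = insert (f.symm ⟨j, hj⟩ : X) (T j) := by
    simp only [T]
    rw [← image_insert (fun i : Fin s.card => (f.symm i : X))]
    congr 1
    ext i
    simp only [mem_filter, mem_univ, true_and, mem_insert, Fin.ext_iff]
    omega
  have c : (T j).card = j := by
    rw [card_image_of_injective _ hinj, Fin.card_filter_val_lt]
    omega
  refine ⟨T j, fun x hx => ?_, f.symm ⟨j, hj⟩, (f.symm _).2, fun hx => ?_, by rwa [c, ← e]⟩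
  · obtain ⟨i, -, rfl⟩ := mem_image.1 hx
    exact (f.symm i).2
  · obtain ⟨i, hi, e'⟩ := mem_image.1 hx
    rw [hinj e'] at hi
    simp at hi

theorem trunc_pt {n : ℝ} (h : 2 < n) : 1 + 2 * n ≤ 1 + n ^ 2 := by nlinarith

/-- the part of a moment where the density exceeds two -/
theorem trunc {β : Type} (w N : β → ℝ≥0∞) (p : ℕ) {η : ℝ≥0∞}
    (h0 : ∑' x, w x * N x ^ p ≤ 1 + η) (h1 : 1 ≤ ∑' x, w x * N x ^ (p + 1) + η)
    (h2 : ∑' x, w x * N x ^ (p + 2) ≤ 1 + η) :
    ∑' x, w x * (if 2 < N x then N x ^ p else 0) ≤ 4 * η := by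
  have key : ∀ x, (if 2 < N x then N x ^ p else 0) + 2 * N x ^ (p + 1) ≤
      N x ^ p + N x ^ (p + 2) := by
    intro x
    by_cases hN : N x = ⊤
    · simp [hN]
    lift N x to NNReal using hN with n hn
    have e : ∀ c : ℝ≥0∞, c + 2 * n ≤ 1 + n ^ 2 → c * n ^ p + 2 * (n : ℝ≥0∞) ^ (p + 1) ≤
        n ^ p + (n : ℝ≥0∞) ^ (p + 2) := fun c hc => by
      calc c * n ^ p + 2 * (n : ℝ≥0∞) ^ (p + 1) = n ^ p * (c + 2 * n) := by ring
        _ ≤ n ^ p * (1 + n ^ 2) := by gcongr
        _ = _ := by ring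
    split_ifs with k
    · have k' : (2 : ℝ) < n := by exact_mod_cast k
      simpa using e 1 (by exact_mod_cast trunc_pt k')
    · have : (0 : ℝ) + 2 * n ≤ 1 + n ^ 2 := by nlinarith [sq_nonneg ((n : ℝ) - 1)]
      simpa using e 0 (by exact_mod_cast this)
  have s : ∑' x, w x * (if 2 < N x then N x ^ p else 0) + 2 * ∑' x, w x * N x ^ (p + 1) ≤
      ∑' x, w x * N x ^ p + ∑' x, w x * N x ^ (p + 2) := by
    simp only [← ENNReal.tsum_mul_left, ← ENNReal.tsum_add]
    refine ENNReal.tsum_le_tsum fun x => ?_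
    calc _ = w x * ((if 2 < N x then N x ^ p else 0) + 2 * N x ^ (p + 1)) := by ring
      _ ≤ w x * _ := mul_le_mul_right (key x) _
      _ = _ := by ring
  generalize ∑' x, w x * (if 2 < N x then N x ^ p else 0) = U at s ⊢
  have t : U + 2 ≤ 4 * η + 2 := by
    calc U + 2 ≤ U + 2 * (∑' x, w x * N x ^ (p + 1) + η) := by
          gcongr; simpa using mul_le_mul_right h1 2
      _ = U + 2 * ∑' x, w x * N x ^ (p + 1) + 2 * η := by ring
      _ ≤ (1 + η) + (1 + η) + 2 * η := add_le_add (s.trans (add_le_add h0 h2)) le_rfl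
      _ = 4 * η + 2 := by ring
  exact (ENNReal.add_le_add_iff_right (by simp)).1 t

end

end Vale.Agent.P057S1
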