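import Vale.Agent.P057S1.S1
import Vale.Agent.P057TL.Telp
import Vale.Agent.P057PD.Prod
import Vale.Agent.P057PA.Pat

/-!
The merging step.
-/

namespace Vale.Agent.P057S1

theorem s1T (s : ℕ) : P057SG.S1 s := s1 (P057TL.telp s) P057PD.prod P057PA.pat

end Vale.Agent.P057S1
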