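import Vale.Agent.P057S1.View
import Vale.Agent.P057DR.Drop
import Vale.Agent.P057KR.Kmw
import Vale.Agent.P057TE.Thb

/-!
The linear fibre as a lattice with a quadratic form; a Markov argument.
-/

set_option linter.all false

open Matrix Finset Real
open Vale.Agent.P267.H775 Vale.Agent.P057G Vale.Agent.P057PC
open Vale.Agent.P057T1 (ind ind_pos ind_neg ind_nonneg ind_le abs_ind ind_mono)
open Vale.Agent.P057KR (nb pt2 hasSum_nb)
open Vale.Agent.P057DR (summ_mul abs_tsum_le)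

namespace Vale.Agent.P057S1

noncomputable section

variable {ι : Type} [Fintype ι] [DecidableEq ι] {lv : ι → ℕ} {L G : Matrix ι ι ℝ}

theorem uni_inv (h : Uni lv L) (d : ι → ℝ) : L *ᵥ (L⁻¹ *ᵥ d) = d := by
  rw [mulVec_mulVec, mul_nonsing_inv _ (by rw [h.det]; exact isUnit_one), one_mulVec]

theorem nb_eq (h : Uni lv L) (a b : ℝ) (G : Matrix ι ι ℝ) (d : ι → ℝ) (z : ι → ℤ) :
    nb a (Lᵀ * (b • G) * L) (L⁻¹ *ᵥ d) z = ng ((a * b) • G) (L *ᵥ toR z - d) := by
  change ng (a • _) _ = _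
  rw [← Matrix.smul_mul, ← Matrix.mul_smul, smul_smul, ng_conj h.det, mulVec_sub, uni_inv h]

theorem sum_fib (h : Uni lv L) (hG : G.PosDef) {a : ℝ} (ha : 0 < a) (d : ι → ℝ) :
    ∑' z, ng (a • G) (L *ᵥ toR z - d) =
      th (a • (Lᵀ * G * L)) (L⁻¹ *ᵥ d) / vol (a • (Lᵀ * G * L)) := by
  rw [← (hasSum_nb (h.posDef hG) ha _).tsum_eq]
  refine tsum_congr fun z => ?_
  have := nb_eq h a 1 G d z
  rwa [one_smul, mul_one, eq_comm] at this

theorem sum_cen (h : Uni lv L) (hG : G.PosDef) {a : ℝ} (ha : 0 < a) :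
    ∑' z, ng (a • G) (L *ᵥ toR z) = th (a • (Lᵀ * G * L))⁻¹ 0 := by
  have := sum_fib h hG ha 0
  simp only [sub_zero, mulVec_zero] at this
  rw [this, th_zero_eq ((h.posDef hG).smul ha),
    mul_div_cancel_left₀ _ (vol_pos ((h.posDef hG).smul ha)).ne']

theorem one_le_cen (h : Uni lv L) (hG : G.PosDef) {a : ℝ} (ha : 0 < a) :
    1 ≤ ∑' z, ng (a • G) (L *ᵥ toR z) := by
  rw [sum_cen h hG ha]
  exact one_le_th_zero ((h.posDef hG).smul ha).inv

theorem fib_le (h : Uni lv L) (hG : G.PosDef) {a b : ℝ} (ha : 0 < a) (hb : a ≤ b) (d : ι → ℝ) :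
    ∑' z, ng (a • G) (L *ᵥ toR z - d) ≤ ∑' z, ng (b • G) (L *ᵥ toR z) := by
  have p := (h.posDef hG).smul ha
  rw [sum_fib h hG ha, sum_cen h hG (ha.trans_le hb), div_le_iff₀' (vol_pos p)]
  refine (th_le_th_zero p _).trans ?_
  rw [th_zero_eq p]
  refine mul_le_mul_of_nonneg_left (th_inv_mono p ((h.posDef hG).smul (ha.trans_le hb))
    (fun x => ?_) 0) (vol_pos p).le
  rw [qq_smul_mat, qq_smul_mat]
  exact mul_le_mul_of_nonneg_right hb (qq_nonneg (h.posDef hG).posSemidef _)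

section pat

variable {α : Type} (a b c : α → ℝ) (n n' : α → α → ℝ)

theorem pt2_nil (E E' : Empty → Empty → Bool) : ∑' q, pt2 a b c n n' E E' q = 1 := by
  simp [pt2]

theorem pt2_mid (E : Empty → Empty → Bool) (E' : Unit → Empty → Bool) :
    ∑' q, pt2 a b c n n' E E' q = ∑' t, b t := by
  let e : α ≃ (Empty → α) × (Unit → α) × (Empty → α) :=
    ⟨fun y => (default, fun _ => y, default), fun q => q.2.1 (), fun _ => rfl, fun q =>
      Prod.ext (Subsingleton.elim _ _) (Prod.ext rfl (Subsingleton.elim _ _))⟩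
  rw [← e.tsum_eq]
  exact tsum_congr fun y => by simp [pt2, e]

variable {a c n}

theorem summ_edge (ha : Summable a) (a0 : ∀ x, 0 ≤ a x) (hc : Summable c) (c0 : ∀ x, 0 ≤ c x)
    {M : ℝ} (hn : ∀ x y, |n x y| ≤ M) : Summable fun q : α × α => c q.1 * (a q.2 * n q.2 q.1) := by
  simp only [← mul_assoc]
  exact summ_mul (hc.mul_of_nonneg ha c0 a0) (fun q => mul_nonneg (c0 _) (a0 _)) fun _ => hn _ _

theorem pt2_edge (ha : Summable a) (a0 : ∀ x, 0 ≤ a x) (hc : Summable c) (c0 : ∀ x, 0 ≤ c x)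
    {M : ℝ} (hn : ∀ x y, |n x y| ≤ M) (E' : Empty → Unit → Bool) :
    ∑' q, pt2 a b c n n' (fun (_ : Unit) (_ : Unit) => true) E' q =
      ∑' z, c z * ∑' t, a t * n t z := by
  let e : α × α ≃ (Unit → α) × (Empty → α) × (Unit → α) :=
    ⟨fun y => (fun _ => y.2, default, fun _ => y.1), fun q => (q.2.2 (), q.1 ()), fun _ => rfl,
      fun q => Prod.ext rfl (Prod.ext (Subsingleton.elim _ _) rfl)⟩
  simp only [← tsum_mul_left]
  rw [← e.tsum_eq, ← (summ_edge ha a0 hc c0 hn).tsum_prod]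
  refine tsum_congr fun y => ?_
  simp [pt2, e]
  ring

end pat

/-- base points with a fine fibre and a bounded mass keep their weight -/
theorem markov {A B : Type} {u g : A → ℝ} {v t : A → B → ℝ} {Q : A → B → Prop}
    [∀ a b, Decidable (Q a b)] {S S₀ S₁ S₂ K : ℝ}
    (u0 : ∀ a, 0 ≤ u a) (hv : ∀ a, Summable (v a)) (v0 : ∀ a b, 0 ≤ v a b) (t0 : ∀ a b, 0 ≤ t a b)
    (g1 : ∀ a, 1 ≤ g a) (vg : ∀ a, ∑' b, v a b ≤ g a) (ht : ∀ a, Summable fun b => v a b * t a b)
    (hK : 0 < K) (h0 : HasSum u S₀) (h1 : HasSum (fun a => u a * g a) S₁)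
    (h2 : HasSum (fun a => u a * ∑' b, v a b * t a b) S₂)
    (h : HasSum (fun a => u a * ∑' b, v a b * if Q a b then 1 else 0) S) :
    S - 2 * (S₁ - S₀) - S₂ / K ≤
      ∑' a, u a * ∑' b, v a b * ind (Q a b ∧ g a ≤ 2 ∧ t a b ≤ K) := by
  have s1 : ∀ a (p : B → Prop), Summable fun b => v a b * ind (p b) := fun a p =>
    summ_mul (hv a) (v0 a) fun _ => abs_ind _
  have s2 : Summable fun a => u a * ∑' b, v a b * ind (Q a b ∧ g a ≤ 2 ∧ t a b ≤ K) :=
    h1.summable.of_nonneg_of_le (fun a => mul_nonneg (u0 a) (tsum_nonneg fun b =>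
      mul_nonneg (v0 a b) (ind_nonneg _))) fun a => mul_le_mul_of_nonneg_left
        (((s1 a _).tsum_le_tsum (fun b => mul_le_of_le_one_right (v0 a b) (ind_le _)) (hv a)).trans
          (vg a)) (u0 a)
  have k := hasSum_le (fun a => ?_) h
    ((s2.hasSum.add ((h1.sub h0).mul_left 2)).add (h2.div_const K))
  · linarith
  have e : ∑' b, v a b * ind (2 < g a) ≤ 2 * (g a - 1) := by
    rw [tsum_mul_right]
    by_cases k : 2 < g a
    · rw [ind_pos k]; linarith [vg a]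
    · rw [ind_neg k]; linarith [g1 a]
  have e2 : (∑' b, v a b * if Q a b then 1 else 0) ≤
      ∑' b, v a b * ind (Q a b ∧ g a ≤ 2 ∧ t a b ≤ K) + ∑' b, v a b * ind (2 < g a) +
        (∑' b, v a b * t a b) / K := by
    refine hasSum_le (fun b => ?_) (summ_mul (hv a) (v0 a) (K := 1) fun b => by
      split_ifs <;> simp).hasSum
      (((s1 a _).hasSum.add (s1 a fun _ => _).hasSum).add ((ht a).hasSum.div_const K))
    rw [mul_div_assoc, ← mul_add, ← mul_add]
    refine mul_le_mul_of_nonneg_left ?_ (v0 a b)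
    have i1 := ind_nonneg (Q a b ∧ g a ≤ 2 ∧ t a b ≤ K)
    have i2 := ind_nonneg (2 < g a)
    have i3 := div_nonneg (t0 a b) hK.le
    split_ifs with q
    · by_cases k1 : 2 < g a
      · rw [ind_pos k1]; linarith
      by_cases k2 : t a b ≤ K
      · rw [ind_pos ⟨q, not_lt.1 k1, k2⟩]; linarith
      · linarith [(one_le_div hK).2 (not_le.1 k2).le]
    · linarith
  have := mul_le_mul_of_nonneg_left (e2.trans (by gcongr : _ ≤ _ + 2 * (g a - 1) + _)) (u0 a)
  refine this.trans_eq ?_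
  ring

/-- the normalisation of the kernel -/
theorem ker_ratio {r : ℕ} {σ : ℝ} (h : 1 ≤ σ) :
    th (σ ^ 2 • (1 : Matrix (Fin r) (Fin r) ℝ)) 0 ≤
      σ ^ r * exp (4 * (r + 1) ^ 2) * vol (σ ^ 2 • (1 : Matrix (Fin r) (Fin r) ℝ)) := by
  have p : (σ ^ 2 • (1 : Matrix (Fin r) (Fin r) ℝ)).PosDef := PosDef.one.smul (by positivity)
  have k := P057TE.th_sep p 0 le_rfl (fun z hz _ => ?_) fun x => by
    simpa [toR_zero] using qq_nonneg p.posSemidef x
  · rw [Fintype.card_fin] at k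
    rw [vol_smul (by positivity), sqrt_sq (by linarith), mul_right_comm, ← mul_assoc,
      Fintype.card_fin, ← mul_pow, mul_inv_cancel₀ (by linarith)]
    simpa [vol] using k
  obtain ⟨i, hi⟩ := Function.ne_iff.1 hz
  have h1 : (1 : ℝ) ≤ toR z i * toR z i := by
    have : 1 ≤ z i * z i := by nlinarith [Int.one_le_abs hi, abs_mul_abs_self (z i)]
    rw [toR_apply]
    exact_mod_cast this
  have h2 : qq 1 (toR z) = ∑ j, toR z j * toR z j := by simp [qq, dotProduct]
  have h3 := single_le_sum (f := fun j => toR z j * toR z j) (fun j _ => mul_self_nonneg _)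
    (mem_univ i)
  rw [qq_smul_mat, h2]
  nlinarith [one_le_pow₀ h (n := 2)]

end

end Vale.Agent.P057S1
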