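import Vale.Agent.P057S1.Fib
import Vale.Agent.P057SH.Aux1
import Vale.Agent.P057SH.Mass

/-!
The sifting step in the linear fibres.
-/

set_option linter.all false

open Matrix Finset Real
open Vale.Agent.P267.H775 Vale.Agent.P057G Vale.Agent.P057PC Vale.Agent.P057TP Vale.Agent.P057SG
open Vale.Agent.P057T1 (ind ind_pos ind_neg ind_nonneg ind_le abs_ind ind_mono)
open Vale.Agent.P057KR (nb pt2 kmw pw_le)
open Vale.Agent.P057DR (summ_mul abs_tsum_le tri_N summ_L summ_T abs_ch ch_sub mul_exp pow_exp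
  le_exp)
open Vale.Agent.P057GH (pd_Gam)

namespace Vale.Agent.P057S1

noncomputable section

variable {T : Tow} {C U : Type} [Fintype U] [DecidableEq U] {cl : U → C} {m s : ℕ} {N : ℝ}
  {Zs Zy : Sys T U Unit} {w : PW T cl m → ℤ} {L : Matrix (LS T cl m) (LS T cl m) ℝ}
  {lv : LS T cl m → ℕ}

theorem nb_X (h : Uni lv L) (e : ∀ t, L *ᵥ t = t - (cL Zs w t - cL Zs w 0)) (Zy : Sys T U Unit)
    (a b : ℝ) : nb a (Lᵀ * (b • bk (Gam T cl Unit m) Li) * L)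
      (L⁻¹ *ᵥ (cL Zs w 0 - cL Zy w 0)) = wX Zs Zy (a * b) w := funext fun z => by
  rw [nb_eq h, e, wX]
  congr 1
  abel

theorem nb_T (h : Uni lv L) (e : ∀ t, L *ᵥ t = t - (cL Zs w t - cL Zs w 0)) (a b : ℝ) :
    nb a (Lᵀ * (b • bk (Gam T cl Unit m) Li) * L) 0 = wT Zs (a * b) w := by
  have := nb_X h e Zs a b
  rwa [sub_self, mulVec_zero] at this

theorem nb_Y (hT : T.Ok s N) (hp : Pair cl m Zs Zy) (h : Uni lv L)
    (e : ∀ t, L *ᵥ t = t - (cL Zs w t - cL Zs w 0)) (a b : ℝ) :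
    nb a (Lᵀ * (b • bk (Gam T cl Unit m) Li) * L) (L⁻¹ *ᵥ cL Zy w 0) = wY Zy (a * b) w :=
  funext fun z => by
    rw [nb_eq h, e, hp.nl hT, wY]
    congr 1
    abel

theorem wY_one (Z : Sys T U Unit) (w : PW T cl m → ℤ) : wY Z 1 w = wL Z w :=
  funext fun z => by rw [wY, one_smul, wL]

theorem fib_two (hT : T.Ok s N) (hZ : Zs.Ok) (w : PW T cl m → ℤ) {a b : ℝ} (ha : 0 < a)
    (hb : a ≤ b) (c : LS T cl m → ℝ) : 1 ≤ ∑' t, wT Zs b w t ∧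
      ∑' z, ng (a • bk (Gam T cl Unit m) Li) (toR z - cL Zs w (toR z) - c) ≤ ∑' t, wT Zs b w t := by
  obtain ⟨L, h, e⟩ := exists_uni hT hZ w
  have p := posDef_bk (pd_Gam hT.pd cl Unit m) Li
  have k := fib_le h p ha hb (cL Zs w 0 + c)
  have k2 := one_le_cen h p (ha.trans_le hb)
  simp only [e] at k k2
  refine ⟨k2, le_trans (le_of_eq (tsum_congr fun z => ?_)) k⟩
  congr 1
  abel

theorem ch_nonneg {F : (Lb T cl Unit m → ℤ) → ℝ} (h : ∀ z, 0 ≤ F z) (x : LS T cl m → ℤ) :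
    0 ≤ ch Zs F w x := tsum_nonneg fun _ => mul_nonneg (ng_nonneg _ _) (h _)

theorem ch_bd (hT : T.Ok s N) (hZ : Zs.Ok) {F : (Lb T cl Unit m → ℤ) → ℝ} {K : ℝ}
    (h : ∀ z, 0 ≤ F z ∧ F z ≤ K) (w : PW T cl m → ℤ) (x : LS T cl m → ℤ) :
    0 ≤ ch Zs F w x ∧ ch Zs F w x ≤ K * ch Zs (fun _ => 1) w x :=
  ⟨ch_nonneg (fun z => (h z).1) x, (le_abs_self _).trans
    (abs_ch hT hZ (fun z => (abs_of_nonneg (h z).1).trans_le (h z).2) w x)⟩

theorem ch_one (hT : T.Ok s N) (hZ : Zs.Ok) {M : ℝ} (h : ms (Gam T cl Unit m) (fun _ => 0) ≤ M)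
    (w : PW T cl m → ℤ) (x : LS T cl m → ℤ) :
    0 ≤ ch Zs (fun _ => 1) w x ∧ ch Zs (fun _ => 1) w x ≤ M := by
  have p := pd_Gam hT.pd cl Unit m
  refine ⟨ch_nonneg (fun _ => zero_le_one) x, ?_⟩
  rw [ms_zero_split (P := No) p fun i j hi hj => P057NA.Gam_zero fun h1 h2 => hT.blk _ _ fun h3 =>
    hi (by simpa only [No, Lb.Pure, h1, h2, h3, not_not] using hj)] at h
  simp only [ch, mul_one]
  exact (P057SH.ms_tri_le (posDef_bk p No) (fun l l' e => P057NA.Gam_blk hT.blk _ _ e)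
    (tri_N hT hZ w x)).trans ((le_mul_of_one_le_right (ms_nonneg _ _)
      (P057TE.one_le_ms (posDef_bk p _))).trans h)

/-- the excess against the normalised kernel -/
theorem exc_ge (hT : T.Ok s N) (hZ : Zs.Ok) {F : (Lb T cl Unit m → ℤ) → ℝ} {K γ σ l l' κ : ℝ}
    (hγ : 0 < γ) (hF : ∀ z, |F z| ≤ K) (hl : l' ≤ l) (hσ : 1 ≤ σ) (κ0 : 0 ≤ κ) {r : ℕ}
    (ξ : (PW T cl m → ℤ) → Matrix (Fin r) (LS T cl m) ℝ) (z : LS T cl m → ℤ)
    (h : κ ≤ ∑' x, wT Zs γ w x * (th (σ ^ 2 • (1 : Matrix (Fin r) (Fin r) ℝ)) (ξ w *ᵥ toR x) /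
      vol (σ ^ 2 • (1 : Matrix (Fin r) (Fin r) ℝ))) *
        (ch Zs F w (z + x) - l * ch Zs (fun _ => 1) w (z + x))) :
    κ ≤ σ ^ r * exp (4 * (r + 1) ^ 2) * exc Zs (fun z => F z - l') γ σ ⊤ ξ w z := by
  have k := ker_ratio (r := r) hσ
  have p : (σ ^ 2 • (1 : Matrix (Fin r) (Fin r) ℝ)).PosDef := PosDef.one.smul (by positivity)
  unfold exc kr
  simp only [P057DP.thK_top p]
  generalize σ ^ 2 • (1 : Matrix (Fin r) (Fin r) ℝ) = B at *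
  have t0 := th_pos p 0
  have v0 := vol_pos p
  have u : ∀ x, 0 ≤ th B x / th B 0 ∧ th B x / th B 0 ≤ 1 := fun x =>
    ⟨div_nonneg (th_pos p x).le t0.le, (div_le_one t0).2 (th_le_th_zero p x)⟩
  have sm : ∀ a : ℝ, Summable fun t => wT Zs γ w t *
      (th B (ξ w *ᵥ toR t) / th B 0 * ch Zs (fun z => F z - a) w (z + t)) := fun a =>
    .of_norm_bounded (P057DR.summ_ch hT hZ hγ (F := fun z => F z - a) (K := K + |a|)
      (fun z => (abs_sub _ _).trans (by linarith [hF z])) w z).abs fun t => by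
      rw [mul_left_comm, norm_mul, Real.norm_of_nonneg (u _).1]
      exact mul_le_of_le_one_left (abs_nonneg _) (u _).2
  have k2 : κ * (vol B / th B 0) ≤ ∑' t, wT Zs γ w t *
      (th B (ξ w *ᵥ toR t) / th B 0 * ch Zs (fun z => F z - l') w (z + t)) := by
    refine (mul_le_mul_of_nonneg_right h (by positivity)).trans ?_
    rw [← tsum_mul_right]
    refine le_trans (le_of_eq (tsum_congr fun t => ?_)) ((sm l).tsum_le_tsum (fun t => ?_) (sm l'))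
    · rw [ch_sub hT hZ hF]
      field_simp
    · rw [ch_sub hT hZ hF, ch_sub hT hZ hF]
      exact mul_le_mul_of_nonneg_left (mul_le_mul_of_nonneg_left (sub_le_sub_left
        (mul_le_mul_of_nonneg_right hl (ch_nonneg (fun _ => zero_le_one) _)) _) (u _).1)
        (ng_nonneg _ _)
  refine le_trans ?_ (mul_le_mul_of_nonneg_left k2 (by positivity))
  rw [mul_left_comm, ← mul_div_assoc]
  exact le_mul_of_one_le_right κ0 ((one_le_div t0).2 k)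

theorem num_fin {ε X Y l : ℝ} (h0 : 0 < ε) (hY : 1000 ≤ Y) (hε : 8 / ε ≤ Y) (hX : X ≤ Y)
    (hl : exp (-X) ≤ l) {e : ℝ} (h : ε * l / 8 ≤ exp (2 * Y ^ 7) ^ ⌊Y ^ 36⌋₊ *
      exp (4 * (⌊Y ^ 36⌋₊ + 1) ^ 2) * e) : exp (-Y ^ 80) ≤ e := by
  have y1 : 1 ≤ Y := by linarith
  have p : ∀ {i j : ℕ}, i ≤ j → Y ^ i ≤ Y ^ j := fun h => pow_le_pow_right₀ y1 h
  have r1 : (⌊Y ^ 36⌋₊ : ℝ) ≤ Y ^ 36 := Nat.floor_le (by positivity)
  have r2 : ((⌊Y ^ 36⌋₊ : ℝ) + 1) ^ 2 ≤ (2 * Y ^ 36) ^ 2 :=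
    pow_le_pow_left₀ (by positivity) (by linarith [one_le_pow₀ y1 (n := 36)]) 2
  have k1 := mul_exp (exp_pos _).le (pow_exp (a := 2 * Y ^ 7) (exp_pos _).le le_rfl (by positivity) r1)
    (exp_le_exp.2 (mul_le_mul_of_nonneg_left r2 (by norm_num : (0 : ℝ) ≤ 4)))
  have k2 : exp (-(Y + X)) ≤ ε * l / 8 := by
    rw [neg_add, exp_add, mul_div_right_comm]
    refine mul_le_mul ?_ hl (exp_pos _).le (by positivity)
    rw [exp_neg, ← inv_div]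
    exact inv_anti₀ (by positivity) (le_exp _ (by linarith))
  have e0 : 0 ≤ e :=
    ((mul_pos_iff_of_pos_left (by positivity)).1 ((exp_pos _).trans_le (k2.trans h))).le
  refine le_trans (exp_le_exp.2 ?_) (P057DR.le_of_card e0 (k2.trans h) k1)
  have := pw_le (show 100 ≤ Y by linarith) 79
  have := p (show 1 ≤ 79 by norm_num)
  have := p (show 43 ≤ 79 by norm_num)
  have := p (show 72 ≤ 79 by norm_num)
  nlinarith

/-- the scale of the two factors -/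
def bt (Y : ℝ) : ℝ := ((1 - exp (-(2 * Y))) / 2)⁻¹

theorem bt_bd {Y : ℝ} (h : 1 ≤ Y) : 1 / 3 ≤ (1 - exp (-(2 * Y))) / 2 ∧ 1 ≤ bt Y := by
  have k : exp (-(2 * Y)) ≤ 1 / 3 := by
    rw [exp_neg, one_div]
    exact inv_anti₀ (by norm_num) (le_exp _ (by linarith))
  exact ⟨by linarith, (one_le_inv₀ (by linarith)).2 (by linarith [exp_pos (-(2 * Y))])⟩

/-- the counts of all small patterns -/
def PT (cl : U → C) (m : ℕ) (Zs Zy : Sys T U Unit) (n : ℕ) (Λ η : ℝ) : Prop :=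
  ∀ (I J K : Type) [Fintype I] [Fintype J] [Fintype K] [DecidableEq I] [DecidableEq J]
    [DecidableEq K], Fintype.card I ≤ n → Fintype.card J ≤ n → Fintype.card K ≤ n →
    ∀ al be ga : ℝ, 0 < al ∧ al ≤ Λ → 0 < be ∧ be ≤ Λ → 0 < ga ∧ ga ≤ Λ →
    ∀ (E : I → K → Bool) (E' : J → K → Bool), ∃ S, |S - 1| ≤ η ∧
      HasSum (fun w : PW T cl m → ℤ => wP Zs w * ∑' q,
        pt2 (wX Zs Zy al w) (wT Zs be w) (wY Zy ga w) (fun a τ => ch Zs (fun _ => 1) w (a + τ))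
          (fun a τ => ch Zy (fun _ => 1) w (τ - a)) E E' q) S

theorem pt_of (hP : PAT) (hT : T.Ok s N) (hp : Pair cl m Zs Zy) {d : ℕ} {Y A γ : ℝ} (hm : m ≤ d + 1)
    (hF : T.LFd d (Y ^ 8) (Y ^ 47 + A)) (hY : 100 ≤ Y) (hU : (Fintype.card U : ℝ) ≤ Y) (g1 : 1 ≤ γ)
    (g2 : γ ≤ exp A) : PT cl m Zs Zy ⌈Y ^ 7⌉₊ (exp (10 * Y) * γ) (exp (-Y ^ 47)) := by
  intro I J K _ _ _ _ _ _ i j k al be ga h1 h2 h3 E E'
  have y7 : Y ≤ Y ^ 7 := le_self_pow₀ (by linarith) (by norm_num)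
  have y8 : 100 * Y ^ 7 ≤ Y ^ 8 := pw_le hY 7
  have y9 : 100 * Y ^ 8 ≤ Y ^ 47 := (pw_le hY 8).trans (pow_le_pow_right₀ (by linarith) (by norm_num))
  have A0 : 0 ≤ A := by simpa using g1.trans g2
  refine (hP s N T C U cl m d _ Zs Zy _ _ _ al be ga I J K E E' hT hp hm hF
    (Nat.lt_of_succ_le (Nat.le_floor ?_)) (one_le_mul_of_one_le_of_one_le (one_le_exp (by linarith)) g1)
    ?_ h1 h2 h3).imp fun S h => ⟨h.1.trans (exp_le_exp.2 (by linarith)), h.2⟩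
  · have := (Nat.cast_le (α := ℝ)).2 i
    have := (Nat.cast_le (α := ℝ)).2 j
    have := (Nat.cast_le (α := ℝ)).2 k
    push_cast
    linarith [Nat.ceil_lt_add_one (show 0 ≤ Y ^ 7 by linarith)]
  · have k1 : (⌊Y ^ 8⌋₊ : ℝ) + 1 ≤ exp (Y ^ 8) :=
      le_exp _ (by linarith [Nat.floor_le (show 0 ≤ Y ^ 8 by linarith)])
    exact (mul_exp (by positivity) (mul_exp (by positivity) (le_exp Y (by linarith))
      (pow_exp (n := 2) (b := 2) (by positivity) k1 (by linarith) (by norm_num)))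
      (mul_exp (by positivity) le_rfl g2)).trans (exp_le_exp.2 (by linarith))

theorem base_of (hT : T.Ok s N) (hZ : Zs.Ok) {n : ℕ} {Λ η γ M K S : ℝ} (hP : PT cl m Zs Zs n Λ η)
    (hn : 1 ≤ n) (g1 : 1 ≤ γ) (g2 : 2 * γ ≤ Λ) (hη : η ≤ 1) (hK : 0 < K)
    (hM : ms (Gam T cl Unit m) (fun _ => 0) ≤ M)
    {Q : (PW T cl m → ℤ) → (LS T cl m → ℤ) → Prop} [∀ a b, Decidable (Q a b)]
    (h : HasSum (fun w => wP Zs w * ∑' z, wL Zs w z * if Q w z then 1 else 0) S) :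
    S - 4 * η - 2 / K ≤ ∑' w, wP Zs w * ∑' z, wL Zs w z * ind (Q w z ∧ ∑' t, wT Zs (2 * γ) w t ≤ 2 ∧
      ∑' t, wT Zs γ w t * ch Zs (fun _ => 1) w (z + t) ≤ K) := by
  have u1 : 0 < (1 : ℝ) ∧ 1 ≤ Λ := ⟨one_pos, by linarith⟩
  obtain ⟨S₀, i0, j0⟩ := hP Empty Empty Empty (by simp) (by simp) (by simp) 1 1 1 u1 u1 u1
    default default
  obtain ⟨S₁, i1, j1⟩ := hP Empty Unit Empty (by simp) hn (by simp) 1 (2 * γ) 1 u1
    ⟨by linarith, g2⟩ u1 default default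
  obtain ⟨S₂, i2, j2⟩ := hP Unit Empty Unit hn (by simp) hn γ 1 1 ⟨by linarith, by linarith⟩ u1 u1
    (fun _ _ => true) default
  have hc := fun w x => (abs_of_nonneg (ch_one hT hZ hM w x).1).trans_le (ch_one hT hZ hM w x).2
  have sT := fun w => summ_T (cl := cl) (m := m) hT hZ (show 0 < γ by linarith) w
  simp only [pt2_nil, mul_one] at j0
  simp only [pt2_mid] at j1
  simp only [wY_one, show wX Zs Zs = wT Zs from rfl, fun w => pt2_edge (wT Zs 1 w)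
    (fun a τ => ch Zs (fun _ => 1) w (τ - a)) (sT w) (fun _ => ng_nonneg _ _) (summ_L hT hZ w)
    (fun _ => ng_nonneg _ _) (n := fun a τ => ch Zs (fun _ => 1) w (a + τ)) fun _ _ => hc w _] at j2
  replace j2 : HasSum (fun w : PW T cl m → ℤ => wP Zs w * ∑' z, wL Zs w z *
      ∑' t, wT Zs γ w t * ch Zs (fun _ => 1) w (z + t)) S₂ := by simpa only [add_comm] using j2
  have hf := fun w => fib_two (cl := cl) (m := m) hT hZ w one_pos (show 1 ≤ 2 * γ by linarith) 0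
  refine le_trans ?_ (markov (fun _ => ng_nonneg _ _) (summ_L hT hZ) (fun _ _ => ng_nonneg _ _)
    (fun w z => tsum_nonneg fun _ => mul_nonneg (ng_nonneg _ _) (ch_nonneg (fun _ => zero_le_one) _))
    (fun w => (hf w).1) (fun w => by simpa [wL] using (hf w).2)
    (fun w => summ_mul (summ_L hT hZ w) (fun _ => ng_nonneg _ _) fun z =>
      abs_tsum_le (sT w) (fun _ => ng_nonneg _ _) fun _ => hc w _) hK j0 j1 j2 h)
  linarith [(abs_le.1 i0).1, (abs_le.1 i1).2,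
    div_le_div_of_nonneg_right (show S₂ ≤ 2 by linarith [(abs_le.1 i2).2]) hK.le]

/-- **sifting** -/
theorem fin (hP : PAT) {ε : ℝ} (h0 : 0 < ε) (h1 : ε ≤ 1) : ∃ Y0 : ℝ, ∀ (s : ℕ) (N : ℝ) (T : Tow)
    (C U : Type) [Fintype U] [DecidableEq U] (cl : U → C) (m d : ℕ) (Zs Zy : Sys T U Unit)
    (F : (Lb T cl Unit m → ℤ) → ℝ) (X Y γ A l l' : ℝ), Y0 ≤ Y → 0 ≤ X → 5 * X + 10 ≤ Y →
    T.Ok s N → Pair cl m Zs Zy → m ≤ d + 1 → T.LFd d (Y ^ 8) (Y ^ 47 + A) →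
    (Fintype.card U : ℝ) ≤ Y → exp (5 * Y ^ 7) ≤ γ → γ ≤ exp A →
    (Fintype.card (LS T cl m) : ℝ) ≤ exp Y → ms (Gam T cl Unit m) (fun _ => 0) ≤ exp (exp Y) →
    exp (-X) ≤ l → l ≤ exp X → l' ≤ (1 - ε) * l → (∀ z, 0 ≤ F z ∧ F z ≤ exp X) →
    PS cl m Zs Zy F (bt Y) l X →
    ∃ (sig : ℝ) (r : ℕ) (ξ : (PW T cl m → ℤ) → Matrix (Fin r) (LS T cl m) ℝ)
      (Ω : (PW T cl m → ℤ) → (LS T cl m → ℤ) → Prop), (r : ℝ) ≤ Y ^ 80 ∧ 1 ≤ sig ∧
      sig ≤ exp (Y ^ 80) ∧ Base Zs γ (Y ^ 80) Ω ∧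
      ∀ w z, Ω w z → exp (-Y ^ 80) ≤ exc Zs (fun z => F z - l') γ sig ⊤ ξ w z := by
  obtain ⟨Y1, hk⟩ := kmw ε h0 h1
  refine ⟨max Y1 (max 1000 (8 / ε)), fun s N T C U _ _ cl m d Zs Zy F X Y γ A l l' hY X0 hX hT hp
    hm hF hU g1 g2 c1 c2 l1 l2 l3 hF' ⟨a, b, ha, hb, ex⟩ => ?_⟩
  obtain ⟨y0, y2, y3⟩ : Y1 ≤ Y ∧ 1000 ≤ Y ∧ 8 / ε ≤ Y := by simpa using hY
  replace hk := hk X Y y0 X0 hX
  have y1 : 1 ≤ Y := by linarith only [y2]
  have p : ∀ {i j : ℕ}, i ≤ j → Y ^ i ≤ Y ^ j := fun h => pow_le_pow_right₀ y1 h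
  have y7 : Y ≤ Y ^ 7 := le_self_pow₀ y1 (by norm_num)
  have y8 : 100 * Y ^ 7 ≤ Y ^ 8 := pw_le (by linarith only [y2]) 7
  have y46 : 100 * Y ^ 46 ≤ Y ^ 47 := pw_le (by linarith only [y2]) 46
  have y47 : Y ^ 47 ≤ Y ^ 80 := p (by norm_num)
  have y9 : Y ^ 8 ≤ Y ^ 46 := p (by norm_num)
  obtain ⟨b1, b2⟩ := bt_bd y1
  have b3 : (1 - exp (-(2 * Y))) / 2 * bt Y = 1 := mul_inv_cancel₀ (by linarith only [b1])
  have b0 : 0 < bt Y := one_pos.trans_le b2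
  have g3 : 1 ≤ γ := (one_le_exp (by positivity)).trans g1
  have hP' := fun Zy (hp : Pair cl m Zs Zy) => pt_of hP hT hp hm hF (by linarith only [y2]) hU g3 g2
  choose L hL eL using exists_uni (cl := cl) (m := m) hT hp.1
  obtain ⟨θ, S, s1, s2⟩ := hk _ _ (wP Zs)
    (fun w => (L w)ᵀ * (bt Y • bk (Gam T cl Unit m) Li) * L w)
    (fun w => (L w)⁻¹ *ᵥ (cL Zs w 0 - cL Zy w 0)) (fun w => (L w)⁻¹ *ᵥ cL Zy w 0) ⌈Y ^ 7⌉₊
    (γ * ((1 - exp (-(2 * Y))) / 2)) (exp (2 * Y ^ 7)) l _ _ _ a (ch Zy b) (ch Zs F)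
    (ch Zy fun _ => 1) (ch Zs fun _ => 1) (fun _ => ng_nonneg _ _)
    (fun w => (hL w).posDef ((posDef_bk (pd_Gam hT.pd cl Unit m) Li).smul b0)) c1
    (by
      have : 3 ≤ exp (Y ^ 7) := le_exp _ (by linarith only [y7, y2])
      rw [show 5 * Y ^ 7 = 4 * Y ^ 7 + Y ^ 7 by ring, exp_add] at g1
      nlinarith only [mul_le_mul_of_nonneg_left this (exp_pos (4 * Y ^ 7)).le, g1,
        mul_le_mul_of_nonneg_left b1 (zero_le_one.trans g3)])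
    le_rfl le_rfl (exp_le_exp.2 (by linarith only [y8, y7, y1])) (Nat.le_ceil _)
    (exp_le_exp.2 (neg_le_neg (p (by norm_num : 14 ≤ 47)))) le_rfl l1 l2 ha
    (ch_bd hT hp.2.1 hb) (ch_bd hT hp.1 hF') (ch_one hT hp.2.1 c2) (ch_one hT hp.1 c2)
    (fun I J K _ _ _ _ _ _ i j k al be ga h1 h2 h3 E E' => by
      have u : ∀ x, 0 < x ∧ x ≤ exp (10 * Y) * (γ * ((1 - exp (-(2 * Y))) / 2)) →
          0 < x * bt Y ∧ x * bt Y ≤ exp (10 * Y) * γ := fun x h => ⟨mul_pos h.1 b0,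
        (mul_le_mul_of_nonneg_right h.2 b0.le).trans_eq (by rw [mul_assoc, mul_assoc, b3, mul_one])⟩
      simpa only [P057KR.cn, nb_X (hL _) (eL _), nb_T (hL _) (eL _), nb_Y hT hp (hL _) (eL _)]
        using hP' Zy hp I J K i j k _ _ _ (u _ h1) (u _ h2) (u _ h3) E E')
    (by simpa only [nb_X (hL _) (eL _), nb_Y hT hp (hL _) (eL _), one_mul] using ex)
  simp only [← mulVec_add, sub_add_cancel, nb_Y hT (pair_self hp.1) (hL _) (eL _), b3, wY_one,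
    P057KR.exc, nb_T (hL _) (eL _), mul_assoc γ, mul_one] at s2
  have k := base_of hT hp.1 (hP' Zs (pair_self hp.1)) (Nat.one_le_ceil_iff.2 (by positivity)) g3
    (mul_le_mul_of_nonneg_right (le_exp _ (by linarith only [y1])) (by positivity))
    (exp_le_one_iff.2 (neg_nonpos.2 (by positivity))) (exp_pos (Y ^ 47)) c2 s2
  refine ⟨exp (2 * Y ^ 7), _, fun w => of (θ w), _, (Nat.floor_le (by positivity)).trans
    (p (by norm_num)), one_le_exp (by positivity), exp_le_exp.2 (by linarith only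
      [y7, y8, y9, y46, y47, y1]), ⟨le_trans ?_ k, fun w z h => ⟨fun c => (fib_two hT hp.1 w
      (by positivity) le_rfl c).2.trans h.2.1, h.2.2.trans (exp_le_exp.2 y47)⟩⟩,
    fun w z h => num_fin h0 y2 y3 (by linarith only [hX, X0]) l1
      (exc_ge hT hp.1 (by positivity) (fun z => (abs_of_nonneg (hF' z).1).trans_le (hF' z).2) l3
        (one_le_exp (by positivity)) (by have := (exp_pos _).trans_le l1; positivity) _ z h.1)⟩
  have k1 : exp (-Y ^ 47) * 7 ≤ exp (-Y ^ 46) := (mul_exp (by norm_num) le_rfl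
    (le_exp (Y ^ 46) (by linarith only [y7, y8, y9, y2]))).trans
    (exp_le_exp.2 (by linarith only [y7, y8, y9, y46, y1]))
  rw [div_eq_mul_inv, ← exp_neg]
  linarith only [k1, s1, exp_le_exp.2 (neg_le_neg y47)]

end

end Vale.Agent.P057S1
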