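import Vale.Agent.P057RH.Defs

/-! Face sums over infinite label sets with values in the extended nonnegative reals. -/

set_option linter.all false

open Finset Function
open scoped BigOperators ENNReal

namespace Vale.Agent.P057S1

open Vale.Agent.P057RH

noncomputable section

open Classical

theorem tsum_pi {I : Type} [Fintype I] : ∀ {X : I → Type} (g : ∀ i, X i → ℝ≥0∞),
    ∑' f : ∀ i, X i, ∏ i, g i (f i) = ∏ i, ∑' x, g i x := by
  refine Fintype.induction_empty_option
    (P := fun I _ => ∀ {X : I → Type} (g : ∀ i, X i → ℝ≥0∞),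
      ∑' f : ∀ i, X i, ∏ i, g i (f i) = ∏ i, ∑' x, g i x) ?_ ?_ ?_ I
  · intro α β _ e ih X g
    letI : Fintype α := Fintype.ofEquiv β e.symm
    rw [← e.prod_comp, ← ih fun i => g (e i), ← (Equiv.piCongrLeft X e).tsum_eq]
    refine tsum_congr fun f => ?_
    rw [← e.prod_comp]
    simp only [Equiv.piCongrLeft_apply_apply]
  · intro X g
    simp
  · intro α _ ih X g
    rw [← (Equiv.piOptionEquivProd (β := X)).symm.tsum_eq, ENNReal.tsum_prod', Fintype.prod_option,
      ← ih fun i => g (some i), ← ENNReal.tsum_mul_right]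
    refine tsum_congr fun x => ?_
    rw [← ENNReal.tsum_mul_left]
    refine tsum_congr fun f => ?_
    rw [Fintype.prod_option]
    rfl

/-- Hoelder with equal exponents -/
theorem holE {β ι : Type} (s : Finset ι) (hs : s.Nonempty) (w : β → ℝ≥0∞) (a : ι → β → ℝ≥0∞) :
    (∑' x, w x * ∏ l ∈ s, a l x) ^ s.card ≤ ∏ l ∈ s, ∑' x, w x * a l x ^ s.card := by
  letI : MeasurableSpace β := ⊤
  obtain ⟨n, hn⟩ : ∃ n, n = s.card := ⟨_, rfl⟩
  have n0 : n ≠ 0 := by rw [hn]; exact hs.card_ne_zero
  have n1 : (0 : ℝ) ≤ (n : ℝ)⁻¹ := by positivity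
  rw [← hn]
  have h := ENNReal.lintegral_prod_norm_pow_le (μ := MeasureTheory.Measure.count) s
    (f := fun l x => w x * a l x ^ n) (fun _ _ => measurable_from_top.aemeasurable)
    (p := fun _ => (n : ℝ)⁻¹) (by simp [← hn, n0]) fun _ _ => n1
  simp only [MeasureTheory.lintegral_count] at h
  have e : ∀ y : ℝ≥0∞, (y ^ (n : ℝ)⁻¹) ^ n = y := fun y => ENNReal.rpow_inv_natCast_pow n0 y
  have e2 : ∀ x, ∏ l ∈ s, (w x * a l x ^ n) ^ (n : ℝ)⁻¹ = w x * ∏ l ∈ s, a l x := fun x => by
    simp only [ENNReal.mul_rpow_of_nonneg _ _ n1, ENNReal.pow_rpow_inv_natCast n0,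
      prod_mul_distrib, prod_const, ← hn, e]
  simp only [e2] at h
  refine (pow_le_pow_left' h n).trans (le_of_eq ?_)
  rw [← prod_pow]
  simp only [e]

/-- comparison of moments -/
theorem holE_mom {β : Type} (w B : β → ℝ≥0∞) {n n' : ℕ} (hn : n ≤ n') (h0 : n' ≠ 0) :
    (∑' x, w x * B x ^ n) ^ n' ≤ (∑' x, w x * B x ^ n') ^ n * (∑' x, w x) ^ (n' - n) := by
  have h := holE (range n') (by simpa using h0) w (fun l x => if l < n then B x else 1)
  have e1 : ∀ (f g : ℝ≥0∞), ∏ l ∈ range n', (if l < n then f else g) = f ^ n * g ^ (n' - n) := by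
    intro f g
    obtain ⟨d, rfl⟩ := Nat.exists_eq_add_of_le hn
    rw [prod_range_add, prod_congr rfl (g := fun _ => f) fun l hl => if_pos (mem_range.1 hl),
      prod_congr rfl (s₁ := range d) (g := fun _ => g) fun l _ => if_neg (by omega)]
    simp
  rw [card_range] at h
  simp only [e1, one_pow, mul_one] at h
  refine h.trans (le_of_eq ?_)
  rw [← e1]
  refine prod_congr rfl fun l _ => ?_
  split_ifs <;> simp

variable {C N V : Type} [Fintype C] [DecidableEq C] [Fintype N] [DecidableEq N] [DecidableEq V]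

/-- the sum over all configurations of a product of local factors -/
def LamE (G : Fc C N → Vw C V → ℝ≥0∞) : ℝ≥0∞ := ∑' a : Fc C N → V, ∏ φ, G φ (vw a φ)

/-- the sum over the variables on the faces through one vertex of the class i -/
def bsE (i : C) (Q : Fm C N i → Vw C V → ℝ≥0∞) (x : Fm C N i → V) : ℝ≥0∞ :=
  ∑' b : Fm C N i → V, ∏ ψ : Fm C N i, Q ψ (vb x b ψ)

theorem prod_split (i : C) (G : Fc C N → Vw C V → ℝ≥0∞) (x : Fm C N i → V)
    (β : N → Fm C N i → V) :
    ∏ φ, G φ (vw ((csplit (V := V) (N := N) i).symm (x, β)) φ) =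
      fr i G x * ∏ l, ∏ ψ : Fm C N i, at' i l G ψ (vb x (β l) ψ) := by
  rw [← (fsplit (N := N) i).symm.prod_comp, Fintype.prod_prod_type, Fintype.prod_option]
  have e := (csplit (V := V) (N := N) i).apply_symm_apply (x, β)
  generalize (csplit (V := V) (N := N) i).symm (x, β) = a at e
  have e1 : ∀ ψ : Fm C N i, a ψ.1 = x ψ := fun ψ => congrFun (congrArg Prod.fst e) ψ
  have e2 : ∀ l (ψ : Fm C N i), a (update ψ.1 i (some l)) = β l ψ := fun l ψ =>
    congrFun (congrFun (congrArg Prod.snd e) l) ψ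
  congr 1
  · refine prod_congr rfl fun ψ _ => ?_
    show G (update ψ.1 i none) (vw a (update ψ.1 i none)) = _
    rw [upd_none]
    congr 1
    funext T
    exact e1 (rm ψ T)
  · refine prod_congr rfl fun l _ => prod_congr rfl fun ψ _ => ?_
    show G (update ψ.1 i (some l)) (vw a (update ψ.1 i (some l))) = _
    congr 1
    funext T
    simp only [vw, vb, res_upd]
    split_ifs
    · exact e2 l _
    · rw [upd_none]; exact e1 _

/-- factorisation along a class, with a function of the faces avoiding the class -/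
theorem lamE_fac' (i : C) (G : Fc C N → Vw C V → ℝ≥0∞) (Ψ : (Fm C N i → V) → ℝ≥0∞) :
    ∑' a : Fc C N → V, (∏ φ, G φ (vw a φ)) * Ψ (fun ψ => a ψ.1) =
      ∑' x : Fm C N i → V, fr i G x * Ψ x * ∏ l : N, bsE i (at' i l G) x := by
  rw [← (csplit (V := V) (N := N) i).symm.tsum_eq, ENNReal.tsum_prod']
  refine tsum_congr fun x => ?_
  unfold bsE
  rw [← tsum_pi (X := fun _ : N => Fm C N i → V)
    fun l b => ∏ ψ : Fm C N i, at' i l G ψ (vb x b ψ), ← ENNReal.tsum_mul_left]
  refine tsum_congr fun β => ?_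
  rw [prod_split, mul_right_comm]
  congr 3
  exact congrArg Prod.fst ((csplit (V := V) (N := N) i).apply_symm_apply (x, β))

theorem lamE_fac (i : C) (G : Fc C N → Vw C V → ℝ≥0∞) :
    LamE G = ∑' x : Fm C N i → V, fr i G x * ∏ l : N, bsE i (at' i l G) x := by
  simpa only [mul_one, LamE] using lamE_fac' i G fun _ => 1

theorem bsE_dl (i : C) (v0 : V) (x : Fm C N i → V) :
    bsE i (fun _ => (dl v0 : Vw C V → ℝ≥0∞)) x = 1 := by
  unfold bsE
  rw [tsum_eq_single (fun _ => v0)]
  · simp [dl, vb]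
  · intro b hb
    obtain ⟨ψ, h⟩ := Function.ne_iff.1 hb
    exact prod_eq_zero (mem_univ ψ) (by simp [dl, vb, rm_univ, h])

theorem lamE_mono {G G' : Fc C N → Vw C V → ℝ≥0∞} (h : ∀ φ u, G φ u ≤ G' φ u) :
    LamE G ≤ LamE G' :=
  ENNReal.tsum_le_tsum fun _ => prod_le_prod' fun _ _ => h _ _

/-- the factors live on the complete complex on the vertex sets `A` -/
def On (v0 : V) (A : C → Finset N) (G : Fc C N → Vw C V → ℝ≥0∞) : Prop :=
  ∀ φ, ¬ rect A φ → G φ = dl v0

theorem On.fac {v0 : V} {A : C → Finset N} {G : Fc C N → Vw C V → ℝ≥0∞} (h : On v0 A G) (i : C)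
    (x : Fm C N i → V) : ∏ l : N, bsE i (at' i l G) x = ∏ l ∈ A i, bsE i (at' i l G) x := by
  refine (prod_subset (subset_univ _) fun l _ hl => ?_).symm
  rw [← bsE_dl i v0 x]
  congr 1
  funext ψ
  exact h _ fun k => hl ((rect_upd A ψ l).1 k).1

/-- cut the factors to a complex -/
def ct (v0 : V) (A : C → Finset N) (G : Fc C N → Vw C V → ℝ≥0∞) (φ : Fc C N) : Vw C V → ℝ≥0∞ :=
  if rect A φ then G φ else dl v0

theorem on_ct (v0 : V) (A : C → Finset N) (G : Fc C N → Vw C V → ℝ≥0∞) : On v0 A (ct v0 A G) :=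
  fun _ h => if_neg h

theorem On.ct {v0 : V} {A : C → Finset N} {G : Fc C N → Vw C V → ℝ≥0∞} (h : On v0 A G) :
    ct v0 A G = G := funext fun φ => by
  unfold P057S1.ct
  split_ifs with k
  · rfl
  · exact (h φ k).symm

/-- replace the vertices of the classes in `P` by those of `t` -/
def rp (P : Finset C) (t : C → N) (φ : Fc C N) : Fc C N :=
  fun i => if i ∈ P then (φ i).map fun _ => t i else φ i

theorem rp_fm {i : C} (t : C → N) (ψ : Fm C N i) : rp {i} t ψ.1 = ψ.1 := by
  funext j
  by_cases h : j = i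
  · subst h; simp [rp, ψ.2]
  · simp [rp, h]

theorem rp_upd {i : C} (t : C → N) (ψ : Fm C N i) (l : N) :
    rp {i} t (update ψ.1 i (some l)) = update ψ.1 i (some (t i)) := by
  funext j
  by_cases h : j = i
  · subst h; simp [rp]
  · simp [rp, h]

theorem sp_rp (P : Finset C) (t : C → N) (φ : Fc C N) : sp (rp P t φ) = sp φ := by
  ext j
  simp only [mem_sp, rp]
  split_ifs <;> simp

theorem rect_rp {A : C → Finset N} {P : Finset C} {t : C → N} (ht : ∀ i ∈ P, t i ∈ A i)
    {φ : Fc C N} (h : rect A φ) : rect A (rp P t φ) := fun i l e => by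
  unfold rp at e
  split_ifs at e with k
  · obtain ⟨_, -, rfl⟩ := Option.map_eq_some_iff.1 e
    exact ht i k
  · exact h i l e

/-- all copies of one class replaced by one of them -/
theorem lamE_copy {v0 : V} {A A' : C → Finset N} {G : Fc C N → Vw C V → ℝ≥0∞} (h : On v0 A G)
    {i : C} (hA : ∀ j, j ≠ i → A' j = A j) (t : C → N) (ht : t i ∈ A i) :
    LamE (ct v0 A' fun φ => G (rp {i} t φ)) =
      ∑' x : Fm C N i → V, fr i G x * bsE i (at' i (t i) G) x ^ (A' i).card := by
  rw [lamE_fac i]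
  refine tsum_congr fun x => ?_
  rw [(on_ct v0 A' _).fac, ← prod_const]
  congr 1
  · refine prod_congr rfl fun ψ _ => ?_
    simp only [ct, rp_fm, rect_fm hA]
    split_ifs with k
    · rfl
    · rw [h _ k]
  · refine prod_congr rfl fun l hl => ?_
    congr 1
    funext ψ
    simp only [at', ct, rp_upd, rect_upd, hl, true_and, rect_fm hA]
    split_ifs with k
    · rfl
    · rw [h _ fun k' => k ((rect_upd A ψ _).1 k').2]

theorem gh_step {v0 : V} {A : C → Finset N} {G : Fc C N → Vw C V → ℝ≥0∞} (h : On v0 A G)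
    (i : C) (hA : (A i).Nonempty) (t : C → N) :
    LamE G ^ (A i).card ≤ ∏ l ∈ A i, LamE (ct v0 A fun φ => G (rp {i} (update t i l) φ)) := by
  rw [lamE_fac i]
  simp only [h.fac]
  refine (holE _ hA _ _).trans (le_of_eq (prod_congr rfl fun l hl => ?_))
  rw [lamE_copy h (fun _ _ => rfl) _ (by simpa using hl), update_self]

theorem rp_rp {P : Finset C} {i : C} (hi : i ∉ P) (t : C → N) (l : N) (φ : Fc C N) :
    rp P t (rp {i} (update t i l) φ) = rp (insert i P) (update t i l) φ := by
  funext j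
  by_cases h : j = i
  · subst h; simp [rp, hi]
  · by_cases k : j ∈ P <;> simp [rp, h, k]

/-- a lower bound passes to a system which is homogeneous in the classes of `P` -/
theorem gh_ind {v0 : V} {A : C → Finset N} {G : Fc C N → Vw C V → ℝ≥0∞} (h : On v0 A G)
    (hA : ∀ i, (A i).Nonempty) (P : Finset C) :
    ∃ t : C → N, (∀ i, t i ∈ A i) ∧ LamE G ≤ LamE (ct v0 A fun φ => G (rp P t φ)) := by
  induction P using Finset.induction_on with
  | empty =>
    refine ⟨fun i => (hA i).choose, fun i => (hA i).choose_spec, le_of_eq ?_⟩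
    have : ∀ φ : Fc C N, rp ∅ (fun i => (hA i).choose) φ = φ := fun φ => by
      funext j; simp [rp]
    simp only [this]
    rw [h.ct]
  | insert i P hi ih =>
    obtain ⟨t, ht, h1⟩ := ih
    have h2 := gh_step (on_ct v0 A fun φ => G (rp P t φ)) i (hA i) t
    obtain ⟨l, hl, h3⟩ := exists_max_image (A i) (fun l => LamE (ct v0 A fun φ =>
      ct v0 A (fun φ => G (rp P t φ)) (rp {i} (update t i l) φ))) (hA i)
    have h4 := h2.trans (prod_le_pow_card _ _ _ h3)
    rw [ENNReal.pow_le_pow_left_iff (hA i).card_ne_zero] at h4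
    have ht' : ∀ j, update t i l j ∈ A j := fun j => by
      by_cases k : j = i
      · subst k; simpa using hl
      · rw [update_of_ne k]; exact ht j
    refine ⟨update t i l, ht', h1.trans (h4.trans (le_of_eq ?_))⟩
    congr 1
    funext φ
    unfold ct
    split_ifs with k
    · dsimp only
      rw [if_pos (rect_rp (fun j _ => ht' j) k), rp_rp hi]
    · rfl

end

end Vale.Agent.P057S1
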