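import Vale.Agent.P057PC.Ex

/-! Gaussian mixtures for sums with values in the extended nonnegative reals. -/

set_option linter.all false

open MeasureTheory Matrix Finset Filter
open scoped ENNReal
open Vale.Agent.P267.H775 Vale.Agent.P057G Vale.Agent.P057PC

namespace Vale.Agent.P057S1

noncomputable section

variable {L : Type} [Fintype L] [DecidableEq L]

/-- the normalised Gaussian -/
def nE (G : Matrix L L ℝ) (v : L → ℝ) : ℝ≥0∞ := ENNReal.ofReal (ng G v)

theorem meas_nE (G : Matrix L L ℝ) (v : L → ℝ) : Measurable fun c => nE G (v - c) :=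
  (((continuous_gs G).comp (continuous_const.sub continuous_id)).div_const _).measurable.ennreal_ofReal

theorem nE_mix {G H : Matrix L L ℝ} (hG : G.PosDef) (hR : (H - G).PosDef) :
    ∃ μ : Measure (L → ℝ), IsProbabilityMeasure μ ∧ ∀ v, ∫⁻ c, nE H (v - c) ∂μ = nE G v := by
  obtain ⟨ν, h0, hc, hi, h1, hv⟩ := ng_mix hG hR
  have hm : Measurable fun c => ENNReal.ofReal (ν c) := hc.measurable.ennreal_ofReal
  refine ⟨volume.withDensity fun c => ENNReal.ofReal (ν c), ⟨?_⟩, fun v => ?_⟩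
  · rw [withDensity_apply _ MeasurableSet.univ, Measure.restrict_univ,
      ← ofReal_integral_eq_lintegral_ofReal hi (Eventually.of_forall h0), h1, ENNReal.ofReal_one]
  · rw [lintegral_withDensity_eq_lintegral_mul _ hm (meas_nE H v), nE, ← (hv v).2,
      ofReal_integral_eq_lintegral_ofReal (hv v).1
        (Eventually.of_forall fun c => mul_nonneg (h0 c) (ng_nonneg _ _))]
    refine lintegral_congr fun c => ?_
    simp only [Pi.mul_apply, nE, ENNReal.ofReal_mul (h0 c)]

/-- the sums for a wide Gram matrix are mixtures of those for a narrow one -/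
theorem mixE {G H : Matrix L L ℝ} (hG : G.PosDef) (hR : (H - G).PosDef) :
    ∃ μ : Measure (L → ℝ), IsProbabilityMeasure μ ∧ ∀ (β : Type) [Countable β] (w : β → ℝ≥0∞)
      (u : β → L → ℝ), (Measurable fun c => ∑' z, w z * nE H (u z - c)) ∧
        ∫⁻ c, ∑' z, w z * nE H (u z - c) ∂μ = ∑' z, w z * nE G (u z) := by
  obtain ⟨μ, hμ, h⟩ := nE_mix hG hR
  refine ⟨μ, hμ, fun β _ w u => ⟨?_, ?_⟩⟩
  · exact Measurable.ennreal_tsum fun z => (meas_nE H _).const_mul _
  · rw [lintegral_tsum fun z => ((meas_nE H _).const_mul _).aemeasurable]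
    exact tsum_congr fun z => by rw [lintegral_const_mul _ (meas_nE H _), h]

theorem mix_le {G H : Matrix L L ℝ} (hG : G.PosDef) (hR : (H - G).PosDef) {β : Type} [Countable β]
    (w : β → ℝ≥0∞) (u : β → L → ℝ) {M : ℝ≥0∞} (h : ∀ c, ∑' z, w z * nE H (u z - c) ≤ M) :
    ∑' z, w z * nE G (u z) ≤ M := by
  obtain ⟨μ, hμ, k⟩ := mixE hG hR
  rw [← (k β w u).2]
  exact (lintegral_mono h).trans (by simp)

theorem mix_ge {G H : Matrix L L ℝ} (hG : G.PosDef) (hR : (H - G).PosDef) {β : Type} [Countable β]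
    (w : β → ℝ≥0∞) (u : β → L → ℝ) {M : ℝ≥0∞} (h : ∀ c, M ≤ ∑' z, w z * nE H (u z - c)) :
    M ≤ ∑' z, w z * nE G (u z) := by
  obtain ⟨μ, hμ, k⟩ := mixE hG hR
  rw [← (k β w u).2]
  exact le_trans (by simp) (lintegral_mono h)

/-- one centre keeps a centred lower bound -/
theorem mix_ex {G H : Matrix L L ℝ} (hG : G.PosDef) (hR : (H - G).PosDef) {β : Type} [Countable β]
    (P Q : β → ℝ≥0∞) (u : β → L → ℝ) {κ : ℝ≥0∞} (hκ : κ ≠ ⊤)
    (hQ : ∑' z, Q z * nE G (u z) ≠ ⊤)
    (h : κ + ∑' z, Q z * nE G (u z) ≤ ∑' z, P z * nE G (u z)) :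
    ∃ c, κ + ∑' z, Q z * nE H (u z - c) ≤ ∑' z, P z * nE H (u z - c) := by
  obtain ⟨μ, hμ, k⟩ := mixE hG hR
  by_contra hc
  push Not at hc
  have e : ∫⁻ c, (κ + ∑' z, Q z * nE H (u z - c)) ∂μ = κ + ∑' z, Q z * nE G (u z) := by
    rw [lintegral_add_left measurable_const, (k β Q u).2]; simp
  have h1 := lintegral_mono (μ := μ) fun c => (hc c).le
  have h2 := lintegral_strict_mono (μ := μ) (g := fun c => κ + ∑' z, Q z * nE H (u z - c))
    (IsProbabilityMeasure.ne_zero μ)
    (measurable_const.add (k β Q u).1).aemeasurable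
    (ne_top_of_le_ne_top (by rw [e]; exact ENNReal.add_ne_top.2 ⟨hκ, hQ⟩) h1)
    (Eventually.of_forall hc)
  rw [e, (k β P u).2] at h2
  exact absurd h (not_le.2 h2)

end

end Vale.Agent.P057S1
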