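import Vale.Agent.P057SG.Plan
import Vale.Agent.P057GH.Pb
import Vale.Agent.P057KR.Pat

/-!
The blocks of the merging step.
-/

set_option linter.all false

open Matrix Finset Real
open Vale.Agent.P267.H775 Vale.Agent.P057G Vale.Agent.P057PC Vale.Agent.P057TP Vale.Agent.P057SG
open Vale.Agent.P057GH (pb fsb)
open Vale.Agent.P057KR (pt2)

namespace Vale.Agent.P057S1

noncomputable section

section gen

variable {T : Tow} {C U : Type} [Fintype U] [DecidableEq U]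

/-- the vertex `none` is deleted -/
def dy (Z : Sys T (Option U) Unit) : Sys T U Unit := pb Z some id

/-- the vertex `none` is merged with the special vertex -/
def mg (Z : Sys T (Option U) Unit) : Sys T U Unit :=
  ⟨fsb Z.fam MvPolynomial.X id, fun c t => Z.off (insert none (c.image some)) t⟩

/-- two systems that come from one system with a further vertex, up to centres -/
def Pair (cl : U → C) (m : ℕ) (Zs Zy : Sys T U Unit) : Prop :=
  Zs.Ok ∧ Zy.Ok ∧ ∃ (Z : Sys T (Option U) Unit) (cs cy : Lb T cl Unit m → ℝ), Z.Ok ∧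
    (∀ l, Pu l → cs l = cy l) ∧ (∀ x, Zs.pr cl m x = (mg Z).pr cl m x + cs) ∧
    ∀ x, Zy.pr cl m x = (dy Z).pr cl m x + cy

variable {cl : U → C} {m : ℕ} (Zs Zy : Sys T U Unit)

/-- the weight of a point of the merged vertex -/
def wX (a : ℝ) (w : PW T cl m → ℤ) (x : LS T cl m → ℤ) : ℝ :=
  ng (a • bk (Gam T cl Unit m) Li) (toR x - (cL Zs w (toR x) - cL Zy w 0))

/-- the weight of a point of the special vertex -/
def wY (a : ℝ) (w : PW T cl m → ℤ) (y : LS T cl m → ℤ) : ℝ :=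
  ng (a • bk (Gam T cl Unit m) Li) (toR y - cL Zy w (toR y))

variable (cl m)

/-- the state in product form -/
def PS (F : (Lb T cl Unit m → ℤ) → ℝ) (β l X : ℝ) : Prop :=
  ∃ (a : (PW T cl m → ℤ) → (LS T cl m → ℤ) → ℝ) (b : (Lb T cl Unit m → ℤ) → ℝ),
    (∀ w x, 0 ≤ a w x ∧ a w x ≤ exp X) ∧ (∀ z, 0 ≤ b z ∧ b z ≤ exp X) ∧
    exp (-X) ≤ ∑' w, wP Zs w * ∑' q : (LS T cl m → ℤ) × (LS T cl m → ℤ),
      wX Zs Zy β w q.1 * a w q.1 * (wY Zy β w q.2 * ch Zy b w q.2 *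
        (ch Zs F w (q.1 + q.2) - l * ch Zs (fun _ => 1) w (q.1 + q.2)))

end gen

/-- the new vertex lies in the class of the passengers -/
def c0 {n p : ℕ} {R : Type} (v : Option (Uv n p R)) : Option (Fin n) := v.bind cU

/-- the state on one edge -/
def ES {T : Tow} {n p : ℕ} {R : Type} [Fintype R] [DecidableEq R]
    (Z : Sys T (Option (Uv n p R)) Unit) (f : ℤ → ℝ) (l X : ℝ) : Prop :=
  ∃ a b : (Lb T (c0 : Option (Uv n p R) → _) Unit (n + 2) → ℤ) → ℝ,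
    (∀ z z', (∀ k, k.bs = none → z k = z' k) → a z = a z') ∧
    (∀ z z', (∀ k, none ∉ k.fc → z k = z' k) → b z = b z') ∧
    (∀ z, 0 ≤ a z ∧ a z ≤ exp X) ∧ (∀ z, 0 ≤ b z ∧ b z ≤ exp X) ∧
    exp (-X) ≤ ∑' z, Z.w c0 (n + 2) z * (a z * b z *
      (∏ c ∈ cells (Prod.fst : Wv n p → Fin n),
        Z.F c0 (n + 2) f z (insert none ((c.image Sum.inl).image some)) () - l))

/-- telescoping over the edges, the passive special vertices are summed -/
def TELP (s : ℕ) : Prop :=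
  ∀ ε : ℝ, 0 < ε → ε ≤ 1 / 10 → ∃ c : ℕ, 1 ≤ c ∧ ∀ (N : ℝ) (P : ℕ → ℝ) (T : Tow) (n p : ℕ)
    (f : ℤ → ℝ) (θ : ℝ), Lad s N c P → T.Ok s N → T.Cx N P → n + 1 ≤ s → Unit01 f →
    exp (-P (s + 1)) ≤ θ → θ ≤ 4 → 1 ≤ p → (p : ℝ) ≤ P (n + 2) → GS T (n + 1) f p θ →
    T.LFd (n + 1) (P (n + 2) ^ c) (P (n + 2) ^ c) →
    ∃ (R : Type) (_ : Fintype R) (_ : DecidableEq R) (Z : Sys T (Option (Uv n p R)) Unit),
      Fintype.card R ≤ p ∧ Z.Ok ∧
      ES Z f ((1 - ε) * θ ^ (cells (Prod.fst : Wv n p → Fin n)).card) (P (n + 2) ^ c)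

/-- the levels below `m` are narrowed by a constant -/
def l16 (m e : ℕ) : ℝ := if e < m then 16 else 1

/-- insertion of the missing labels, shear and mixture -/
def PROD : Prop :=
  ∀ (s : ℕ) (N : ℝ) (T : Tow) (n p : ℕ) (R : Type) [Fintype R] [DecidableEq R]
    (Z : Sys T (Option (Uv n p R)) Unit) (f : ℤ → ℝ) (β l X : ℝ), T.Ok s N → Z.Ok → Unit01 f →
    1 ≤ β → ES Z f l X →
    ∃ Zs Zy : Sys (T.nar (l16 (n + 2))) (Uv n p R) Unit, Pair cU (n + 2) Zs Zy ∧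
      PS cU (n + 2) Zs Zy (PG Zs f) β l (X + 1)

/-- the counting lemma for the patterns of the sifting step -/
def PAT : Prop :=
  ∀ (s : ℕ) (N : ℝ) (T : Tow) (C U : Type) [Fintype U] [DecidableEq U] (cl : U → C) (m d n : ℕ)
    (Zs Zy : Sys T U Unit) (Λ₀ Λ η al be ga : ℝ) (I J K : Type) [Fintype I] [Fintype J] [Fintype K]
    [DecidableEq I] [DecidableEq J] [DecidableEq K] (E : I → K → Bool) (E' : J → K → Bool),
    T.Ok s N → Pair cl m Zs Zy → m ≤ d + 1 → T.tw.LF d n Λ₀ η →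
    Fintype.card U + Fintype.card I + Fintype.card J + Fintype.card K < n → 1 ≤ Λ →
    64 * (n + 1) ^ 2 * Λ ≤ Λ₀ → 0 < al ∧ al ≤ Λ → 0 < be ∧ be ≤ Λ → 0 < ga ∧ ga ≤ Λ →
    ∃ S, |S - 1| ≤ η ∧ HasSum (fun w : PW T cl m → ℤ => wP Zs w * ∑' q,
      pt2 (wX Zs Zy al w) (wT Zs be w) (wY Zy ga w) (fun a τ => ch Zs (fun _ => 1) w (a + τ))
        (fun a τ => ch Zy (fun _ => 1) w (τ - a)) E E' q) S

end

end Vale.Agent.P057S1
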