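import Vale.Agent.P057S1.Fin
import Vale.Agent.P057RG.Up
import Vale.Agent.P057SA.Eg

/-!
The merging step from its blocks.
-/

set_option linter.all false

open Matrix Finset Real
open Vale.Agent.P267.H775 Vale.Agent.P057G Vale.Agent.P057PC Vale.Agent.P057TP Vale.Agent.P057SG
open Vale.Agent.P057DR (mul_exp pow_exp le_exp)
open Vale.Agent.P057NA (sc sc_eq ok_nar card_Lb ms_Gam)
open Vale.Agent.P057RG (lad_mono lad_pow lfd_mono ap_X dm_nonneg)

namespace Vale.Agent.P057S1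

noncomputable section

theorem sc_le {L : Type} [Fintype L] [DecidableEq L] {lv : L → ℕ} {G : Matrix L L ℝ} {μ : ℕ → ℝ}
    (hG : G.PosDef) (hb : ∀ a b, lv a ≠ lv b → G a b = 0) {K : ℝ} (h : ∀ e, μ e ≤ K) (x : L → ℝ) :
    qq (sc lv μ G) x ≤ K * qq G x := by
  have e : K • G = sc lv μ G + sc lv (fun e => K - μ e) G := by
    ext a b
    simp [sc, sub_mul]
  rw [← qq_smul_mat, e, qq_add_mat, sc_eq (μ := fun e => K - μ e) hb fun a => sub_nonneg.2 (h _),
    qq_conj]
  exact le_add_of_nonneg_right (qq_nonneg hG.posSemidef _)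

variable {T : Tow} {s m : ℕ} {N : ℝ}

theorem l16_bd (m e : ℕ) : 1 ≤ l16 m e ∧ l16 m e ≤ 16 := by
  unfold l16
  split_ifs <;> norm_num

theorem lfd_nar (hT : T.Ok s N) {d : ℕ} {a B : ℝ} (h : T.LFd d a (B + 15)) :
    (T.nar (l16 m)).LFd d a B := by
  intro M V L _ _ _ _ C hC hn hd A hA hle
  have k : C.Ok T.tw := ⟨hC.dy, hC.abs, hC.inj, hC.gen, hC.lab1, hC.lab2, hC.Rlow, hC.Rpos⟩
  have e : C.Gam (T.nar (l16 m)).tw = sc (fun l => T.lv (C.cd l)) (l16 m) (C.Gam T.tw) := by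
    ext l l'
    exact (@mul_ite_zero _ _ _ (_) _ _).symm
  have p := k.posDef (P057RG.ok_tw hT)
  refine (h M V L C k hn hd A hA fun v => (hle v).trans ?_).trans (exp_le_exp.2 (by linarith))
  rw [e, exp_add, mul_assoc]
  exact mul_le_mul_of_nonneg_left ((sc_le p (fun l l' e => (@ite_eq_right_iff _ _ (_) _ _).2
    fun _ => hT.blk _ _ e) (fun e => (l16_bd m e).2) v).trans (mul_le_mul_of_nonneg_right
      (le_exp _ (by norm_num)) (qq_nonneg p.posSemidef v))) (exp_pos _).le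

theorem up_nar (hT : T.Ok s N) : Up m (T.nar (l16 m)) T :=
  ⟨MvPolynomial.X, Equiv.refl _, ⟨fun a _ => MvPolynomial.isWeightedHomogeneous_X _ _ a,
    fun y h => (ap_X y).symm ▸ fun e he => (le_mul_of_one_le_left (qq_nonneg hT.pd.posSemidef _)
      (l16_bd m e).1).trans ((P057SH.ln_nar T _ e y).ge.trans (h e he)),
    fun _ y => congrArg (toR T.el ⬝ᵥ ·) (ap_X y).symm⟩, fun _ => rfl, fun _ => rfl,
    fun a y => congrArg (MvPolynomial.eval · (T.q a)) (ap_X y).symm,
    fun a b => (congrArg (· * T.G a.1 b.1) (if_neg a.2.not_gt)).trans (one_mul _), fun _ => rfl⟩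

theorem yy_l16 (hT : T.Ok s N) (e : ℕ) : (T.nar (l16 m)).yy N e ≤ T.yy N e + T.dm e * 8 := by
  have := log_le_sub_one_of_pos (one_pos.trans_le (l16_bd m e).1)
  rw [P057SH.yy_nar hT.pd (one_pos.trans_le (l16_bd m e).1)]
  nlinarith [dm_nonneg T e, (l16_bd m e).2]

theorem PS.mono {C U : Type} [Fintype U] [DecidableEq U] {cl : U → C} {Zs Zy : Sys T U Unit}
    {F : (Lb T cl Unit m → ℤ) → ℝ} {β l X X' : ℝ} (h : PS cl m Zs Zy F β l X) (e : X ≤ X') :
    PS cl m Zs Zy F β l X' := by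
  obtain ⟨a, b, h1, h2, h3⟩ := h
  have k := exp_le_exp.2 e
  exact ⟨a, b, fun w x => ⟨(h1 w x).1, (h1 w x).2.trans k⟩, fun z => ⟨(h2 z).1, (h2 z).2.trans k⟩,
    (exp_le_exp.2 (neg_le_neg e)).trans h3⟩

/-- the number of labels and the total mass -/
theorem lab_bd {C U : Type} [Fintype U] [DecidableEq U] {cl : U → C} (hT : T.Ok s N) (hN : 1 ≤ N)
    {x y : ℝ} (hx : s + 10 ≤ x) (hy : 5 ≤ y) (h1 : y ≤ exp x) (hd : ∀ e, T.dm e ≤ y ∧ T.yy N e ≤ y)
    (hU : Fintype.card U + 1 ≤ y) : (Fintype.card (LS T cl m) : ℝ) ≤ exp (x ^ 4) ∧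
      ms (Gam T cl Unit m) (fun _ => 0) ≤ exp (exp (x ^ 4)) := by
  have s0 : (0 : ℝ) ≤ s := Nat.cast_nonneg s
  have x3 : 10 * x ^ 2 ≤ x ^ 3 := by nlinarith [sq_nonneg x]
  have x4 : 10 * x ^ 3 ≤ x ^ 4 := by nlinarith [sq_nonneg x]
  have h2 : y + 1 ≤ exp (x + x) := by
    rw [exp_add]
    nlinarith [add_one_le_exp x]
  have k : (Fintype.card (Lb T cl Unit m) : ℝ) ≤ exp (x ^ 3) :=
    (card_Lb hT (fun e => (hd e).1) (by simpa using hU)).trans ((mul_exp (by positivity)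
      (mul_exp (by linarith) (le_exp x (by linarith)) h1) (pow_exp (b := x) (by linarith) h2
        (by linarith) (by push_cast; linarith))).trans (exp_le_exp.2 (by nlinarith)))
  refine ⟨le_trans (by exact_mod_cast Fintype.card_subtype_le _)
    (k.trans (exp_le_exp.2 (by nlinarith))), (ms_Gam hT hN (Y := (y + 1) ^ 3) (by positivity)
      fun e => ?_).trans (exp_le_exp.2 ((mul_exp (by positivity) k (pow_exp (n := 3) (b := 3)
        (by linarith) h2 (by linarith) (by norm_num))).trans (exp_le_exp.2 (by nlinarith))))⟩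
  have := pow_le_pow_left₀ (by linarith [dm_nonneg T e]) (show T.dm e + 1 ≤ y + 1 by
    linarith [(hd e).1]) 2
  nlinarith [(hd e).2, sq_nonneg (y + 1)]

/-- **merging and sifting** -/
theorem s1 (hA : TELP s) (hB : PROD) (hP : PAT) : S1 s := by
  intro ε h0 h1
  obtain ⟨c₁, -, hA⟩ := hA (ε / 2) (by linarith) (by linarith)
  obtain ⟨Y0, hF⟩ := fin hP (ε := ε / 2) (by linarith) (by linarith)
  obtain ⟨k, hk⟩ : ∃ k, k = c₁ + 2 * s + 20 + ⌈Y0⌉₊ := ⟨_, rfl⟩
  refine ⟨(k + 1) * 80, by omega, fun N P T n p f θ A γ hL hT hC hn hf t1 t4 p1 pP hG hA' lf g1 g2 => ?_⟩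
  have an := antitone_nat_of_succ_le hL.anti
  have big : ∀ {j : ℕ} (e), j ≤ (k + 1) * 80 → (j : ℝ) ≤ P e := fun e h =>
    le_trans (by exact_mod_cast h) (hL.big e)
  have xs : (s : ℝ) + 20 ≤ P (n + 2) := by exact_mod_cast big (j := s + 20) _ (by omega)
  have s0 : (0 : ℝ) ≤ s := Nat.cast_nonneg s
  have x0 := an (Nat.zero_le (n + 2))
  have x1 := an (show n + 2 ≤ s + 1 by omega)
  have lg : P 0 ≤ exp (P (n + 2)) :=
    (log_le_iff_le_exp (by linarith only [xs, s0, x0])).1 (hL.lg.trans x1)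
  have t0 : 0 < θ := (exp_pos _).trans_le t1
  have hY0 := (Nat.le_ceil Y0).trans (big (n + 2) (by omega))
  have hT' : (T.nar (l16 (n + 2))).Ok s N := ok_nar hT fun e => (l16_bd _ e).1
  have hC' : (T.nar (l16 (n + 2))).Cx N fun e => P e ^ 2 := fun e => by
    have : (9 : ℝ) ≤ P e := by exact_mod_cast big (j := 9) e (by omega)
    exact ⟨(hC e).1.trans (by nlinarith only [this]), (yy_l16 hT e).trans (by
      nlinarith only [this, (hC e).1, (hC e).2])⟩
  have hL' := lad_pow hL (by exact_mod_cast (show 1 ≤ (k + 1) * 80 by omega)) (a := fun _ => 2)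
    (fun _ => le_rfl) (fun _ => le_rfl) (by exact_mod_cast (show 2 ≤ (k + 1) * 80 by omega))
  set x := P (n + 2)
  have y1 : 1 ≤ x := by linarith only [xs, s0]
  have pw : ∀ {i j : ℕ}, i ≤ j → x ^ i ≤ x ^ j := fun h => pow_le_pow_right₀ y1 h
  have q : ∀ {i j : ℕ}, i < j → 20 * x ^ i ≤ x ^ j := fun h => le_trans (by
    rw [pow_succ']
    exact mul_le_mul_of_nonneg_right (by linarith only [xs, s0]) (by positivity)) (pw h)
  have o : ∀ i : ℕ, 1 ≤ x ^ i := fun i => one_le_pow₀ y1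
  have xA : ∀ {i j : ℕ}, i ≤ j → x ^ i ≤ A ^ j := fun h =>
    (pw h).trans (pow_le_pow_left₀ (by positivity) hA' _)
  obtain ⟨R, _, _, Z, r1, hZ, hE⟩ := hA N P T n p f θ
    (lad_mono hL (by exact_mod_cast (show c₁ ≤ (k + 1) * 80 by omega))) hT hC hn hf t1 t4 p1 pP hG
    (lfd_mono hT lf le_rfl (xA (by omega)) (xA (by omega)))
  obtain ⟨Zs, Zy, hp, hS⟩ := hB s N T n p R Z f _ _ _ hT hZ hf (bt_bd (o (k + 1))).2 hE
  have x2 : x ≤ x ^ 2 := le_self_pow₀ y1 (by norm_num)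
  have rP : (Fintype.card R : ℝ) ≤ x := le_trans (by exact_mod_cast r1) pP
  have lf' : (T.nar (l16 (n + 2))).LFd (n + 1) ((x ^ (k + 1)) ^ 8) ((x ^ (k + 1)) ^ 47 + A) := by
    rw [← pow_mul, ← pow_mul]
    refine lfd_nar hT (lfd_mono hT lf le_rfl (xA (by omega)) ?_)
    have a1 : A ≤ A ^ ((k + 1) * 47) := le_self_pow₀ (y1.trans hA') (by omega)
    have a2 := pow_le_pow_right₀ (y1.trans hA') (show (k + 1) * 47 + 1 ≤ (k + 1) * 80 by omega)
    rw [pow_succ] at a2
    nlinarith only [a1, a2, xA (le_refl ((k + 1) * 47)), xs, s0, hA']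
  obtain ⟨b1, b2⟩ := P057DR.pg_le (c := 0) (A := x ^ 2) (X := x ^ 2) (Z := Zs)
    ⟨lad_mono hL' (Nat.cast_le.2 (Nat.zero_le _)), hT', hC', hp.1, hn, hf, t0.le, t4, p1, pP.trans x2, rP.trans x2,
      le_rfl, lfd_mono hT' lf' le_rfl (by simpa using one_le_pow₀ (o _)) (by
        simpa using (one_le_pow₀ (o _)).trans (le_add_of_nonneg_right (by linarith only [hA', y1])))⟩
    le_rfl (by linarith only [x2, xs])
  have cU' : (Fintype.card (Uv n p R) : ℝ) + 1 ≤ x ^ 2 := by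
    have : (n : ℝ) + 1 ≤ s := by exact_mod_cast hn
    simp only [Fintype.card_sum, Fintype.card_prod, Fintype.card_fin]
    push_cast
    nlinarith only [this, rP, pP, xs, s0, Nat.cast_nonneg (α := ℝ) n, Nat.cast_nonneg (α := ℝ) p]
  have x02 := pow_le_pow_left₀ (by positivity) x0 2
  obtain ⟨d1, d2⟩ := lab_bd (cl := (cU : Uv n p R → _)) (m := n + 2) hT' hL.one (x := 2 * x)
    (y := P 0 ^ 2) (by linarith only [xs, s0]) (by linarith only [x02, x2, xs, s0])
    (pow_exp (by linarith only [x0, y1]) lg (by positivity) (by norm_num)) (fun e => by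
      have := pow_le_pow_left₀ (by linarith only [big (j := 0) e (by omega)]) (an e.zero_le) 2
      exact ⟨(hC' e).1.trans this, (hC' e).2.trans this⟩) (cU'.trans x02)
  have d3 : exp ((2 * x) ^ 4) ≤ exp (x ^ (k + 1)) := exp_le_exp.2 (by
    rw [mul_pow]
    linarith only [q (show 4 < k + 1 by omega), o 4])
  have b3 : exp ((x ^ 2) ^ (s + 4)) ≤ exp (x ^ k) := by
    rw [← pow_mul]
    exact exp_le_exp.2 (pw (by omega))
  have c1 : 1 ≤ (cells (Prod.fst : Wv n p → Fin n)).card := by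
    rw [P057SA.card_wv]
    exact Nat.one_le_pow _ _ p1
  have c2 : ((cells (Prod.fst : Wv n p → Fin n)).card : ℝ) ≤ x ^ s := by
    rw [P057SA.card_wv, Nat.cast_pow]
    exact (pow_le_pow_left₀ (Nat.cast_nonneg _) pP n).trans (pw (by omega))
  have tp := pow_pos t0 (cells (Prod.fst : Wv n p → Fin n)).card
  obtain ⟨sig, r, ξ, Ω, hK⟩ := hF s N _ _ _ cU (n + 2) (n + 1) Zs Zy (PG Zs f) (x ^ k) (x ^ (k + 1))
    γ A _ (((1 - ε) * θ) ^ (cells (Prod.fst : Wv n p → Fin n)).card)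
    (hY0.trans (le_self_pow₀ y1 (by omega))) (by positivity)
    (by linarith only [q (show k < k + 1 by omega), o k]) hT' hp le_rfl lf'
    (by linarith only [cU', pw (show 2 ≤ k + 1 by omega)])
    ((exp_le_exp.2 (by
      rw [← pow_mul]
      linarith only [q (show (k + 1) * 7 < (k + 1) * 80 by omega), o ((k + 1) * 7)])).trans g1)
    g2 (d1.trans d3) (d2.trans (exp_le_exp.2 d3))
    (by
      have e1 : exp (-1) ≤ 1 - ε / 2 := by
        rw [Real.exp_neg]
        exact (inv_anti₀ two_pos (le_exp 1 (by norm_num))).trans (by norm_num; linarith only [h1])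
      have e2 := pow_le_pow_left₀ (exp_pos _).le ((exp_le_exp.2 (neg_le_neg x1)).trans t1)
        (cells (Prod.fst : Wv n p → Fin n)).card
      refine le_trans ?_ (mul_le_mul e1 e2 (by positivity) (by linarith only [h1]))
      rw [← exp_nat_mul, ← exp_add]
      have := q (show s + 1 < k by omega)
      rw [pow_succ] at this
      exact exp_le_exp.2 (by nlinarith only [this, c2, o s, y1]))
    ((mul_le_of_le_one_left tp.le (by linarith only [h0])).trans (b2.trans b3))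
    (by
      rw [mul_pow, ← mul_assoc]
      exact mul_le_mul_of_nonneg_right ((pow_le_of_le_one (by linarith only [h1])
        (by linarith only [h0]) (by omega)).trans (by nlinarith only [h0])) tp.le)
    (fun z => ⟨(b1 z).1, (b1 z).2.trans b3⟩)
    (hS.mono (by linarith only [q (show c₁ < k by omega), o c₁]))
  rw [← pow_mul] at hK
  refine ⟨_, R, _, _, Zs, sig, r, ξ, Ω, hT', hp.1, up_nar hT, fun e => ?_, fun a B h => lfd_nar hT
    (lfd_mono hT h le_rfl le_rfl (add_le_add le_rfl (by exact_mod_cast (show 15 ≤ (k + 1) * 80 by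
      omega)))), r1, hK⟩
  have e8 : (8 : ℝ) ≤ P (e + 1) := by exact_mod_cast big (j := 8) _ (by omega)
  have e9 := e8.trans (le_self_pow₀ (by linarith only [e8]) (show (k + 1) * 80 ≠ 0 by omega))
  exact ⟨le_add_of_nonneg_right (by linarith only [e9]), (yy_l16 hT e).trans (by
    nlinarith only [e9, dm_nonneg T e])⟩

end

end Vale.Agent.P057S1
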